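import Crest.Agent.X212.Fil70.Main
import Crest.Agent.X212.Rfl83.Lx
import Crest.Agent.X212.Cl59.Lp
import Crest.Agent.X212.Cl59.Main
import Crest.Agent.X212.Tw51.Main
import Crest.Agent.X212.Fil70.Fin
import Crest.Agent.X212.Nck90.Lv2
import Crest.Agent.X212.Nck90.Lev
import Crest.Agent.X212.Nck90.Cat
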