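import Crest.Agent.X212.Nck90.Rig0

-- ▼ part X212/Nck90/In
section

/-!
# X212, necks (helper90), part 2: the inputs, no drift, the centres
-/

set_option autoImplicit false
set_option linter.unusedSectionVars false
noncomputable section
open scoped Manifold ContDiff Topology InnerProductSpace
open MeasureTheory Set Function Filter

namespace Crest.Agent.X212.Nck90
open An Sob92 Cyf70 Neck67 Cmp73 Pj41 Eqv71 Tmp64 Nd18 Std94 Bki64
open Brk64 (eI Gd wI)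

/-- the first exit -/
theorem exit {P Q : ℝ → Prop} {ρ a b : ℝ} (hρ : 0 < ρ) (h : ∀ s s', Q s → |s' - s| ≤ ρ → P s')
    (ha : Q a) (hb : ¬Q b) : ∃ e ∈ uIcc a b, ¬Q e ∧ ∀ s ∈ uIcc a e, P s := by
  wlog hab : a ≤ b generalizing P Q a b
  · obtain ⟨e, e1, e2, e3⟩ := this (P := fun s => P (-s)) (Q := fun s => Q (-s)) (a := -a) (b := -b)
      (fun s s' h1 h2 => h _ _ h1 (by rwa [neg_sub_neg, abs_sub_comm])) (by simpa) (by simpa)
      (by linarith)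
    refine ⟨-e, ?_, e2, fun s hs => ?_⟩
    · rw [mem_uIcc] at e1 ⊢
      rcases e1 with e1 | e1
      exacts [.inr ⟨by linarith [e1.2], by linarith [e1.1]⟩, .inl ⟨by linarith [e1.2],
        by linarith [e1.1]⟩]
    · refine (neg_neg s ▸ e3 (-s) ?_ :)
      rw [mem_uIcc] at hs ⊢
      rcases hs with hs | hs
      exacts [.inr ⟨by linarith [hs.2], by linarith [hs.1]⟩, .inl ⟨by linarith [hs.2],
        by linarith [hs.1]⟩]
  have hne : {s ∈ Icc a b | ¬Q s}.Nonempty := ⟨b, ⟨hab, le_rfl⟩, hb⟩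
  have hbd : BddBelow {s ∈ Icc a b | ¬Q s} := ⟨a, fun _ h => h.1.1⟩
  obtain ⟨e, ⟨e1, e2⟩, e3⟩ := exists_lt_of_csInf_lt hne (lt_add_of_pos_right _ (half_pos hρ))
  have h1 : a ≤ sInf {s ∈ Icc a b | ¬Q s} := le_csInf hne fun _ h => h.1.1
  have h2 : ∀ s, a ≤ s → s < sInf {s ∈ Icc a b | ¬Q s} → Q s := fun s h3 h4 => by_contra fun h5 =>
    absurd (csInf_le hbd ⟨⟨h3, h4.le.trans (csInf_le hbd ⟨⟨hab, le_rfl⟩, hb⟩)⟩, h5⟩) (not_le.2 h4)
  refine ⟨e, uIcc_of_le hab ▸ e1, e2, fun s hs => ?_⟩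
  rw [uIcc_of_le e1.1] at hs
  rcases le_or_gt s (a + ρ) with h3 | h3
  · exact h a s ha (abs_le.2 ⟨by linarith [hs.1], by linarith⟩)
  · exact h (s - ρ) s (h2 _ (by linarith) (by linarith [hs.2])) (by simp [abs_of_pos hρ])

theorem curry_ne {α β : Type*} (l : Filter α) (m : Filter β) [l.NeBot] [m.NeBot] :
    (l.curry m).NeBot :=
  ⟨fun h => by
    have : ∀ᶠ _ in l.curry m, False := h ▸ eventually_bot
    obtain ⟨_, h⟩ := (eventually_curry_iff.1 this).exists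
    exact h.exists.choose_spec⟩

variable {E3 : Type} [NormedAddCommGroup E3] [NormedSpace ℝ E3] [FiniteDimensional ℝ E3]
  [MeasurableSpace E3] [BorelSpace E3]
  {H3 : Type} [TopologicalSpace H3] {I3 : ModelWithCorners ℝ E3 H3} [I3.Boundaryless]
  {Y : Type} [TopologicalSpace Y] [ChartedSpace H3 Y] [IsManifold I3 ∞ Y] [T2Space Y]
  [MeasurableSpace Y] [BorelSpace Y] [SecondCountableTopology Y] [CompactSpace Y]
  {κ : Type} [Fintype κ] {lam : Type} [Fintype lam] {D : YD I3 Y κ lam} {β β' : YC Y κ lam}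
  {N : ND Y lam} {q : YW I3 Y →₀ ℝ} {r : ℕ}

theorem nr_act (hβ : D.Adm β) (hβ' : D.Adm β') {g : Y → CL β.m.V β'.m.V} {ξ : Circle}
    (h : Stb D β β' g ξ) {ε : ℝ} (hε : 0 < ε) : ∃ η > 0, ∀ r (c : Cfg (Y × ℝ) (Option κ) lam r) J s,
      Nr D c J s β η → Nr D c J s β' ε := by
  obtain ⟨η, h0, h1⟩ := act_eta hβ hβ' hε
  have p := lt_min h0 hε
  refine ⟨_, p, fun r c J s ⟨a, u, ζ, b⟩ => ⟨(Nr.mono ⟨a, u, ζ, b⟩ p (min_le_right _ _)).1, _, _,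
    h1 r c _ u ζ g ξ h (b.mono (win_op _ _) (win_sub ?_) p (min_le_left _ _))⟩⟩
  simpa using inv_anti₀ p (min_le_right _ _)

variable (D) in
/-- decay between the times `a` and `b` -/
structure Dc (c : Cfg (Y × ℝ) (Option κ) lam r) (β : YC Y κ lam) (a b d C : ℝ) (k : ℕ) (B : ℝ) :
    Prop where
  one : ∃ u, ∃ ζ : Circle, ∀ s ∈ Icc a b, Cl D.Z c (cy β) u (fun _ => ζ) (win Y s 1) k B
  mid : ∃ β' : YC Y κ lam, ∃ u, ∃ ζ : Circle, D.Adm β' ∧ ∀ s ∈ Icc a b,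
    Cl D.Z c (cy β') u (fun _ => ζ) (win Y s 1) 0 (B * Real.exp (-d * min (s - a) (b - s)))
  den : ∀ x : Y × ℝ, x.2 ∈ Icc a b → eZ D c x ≤ C * Real.exp (-d * min (x.2 - a) (b - x.2)) ∧
    |kZ D c x| ≤ C * Real.exp (-d * min (x.2 - a) (b - x.2))

variable {ν : Type} {𝒰 : Ultrafilter ν} {A : Brk64.Nk ν} {ρ : ν → ℕ}
  {c : ∀ n, Cfg (Y × ℝ) (Option κ) lam (ρ n)}

/-- exponential decay near the critical set -/
def Dec (N : ND Y lam) (D : YD I3 Y κ lam) (l : Filter ν) (J : ν → Set ℝ)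
    (c : ∀ n, Cfg (Y × ℝ) (Option κ) lam (ρ n)) : Prop :=
  ∀ β, N.Crit D β → ∃ d > 0, ∃ C > 0, ∀ k, ∀ B > 0, ∃ η > 0, ∀ᶠ n in l, ∀ a b, a ≤ b →
    (∀ s ∈ Icc a b, Nr D (c n) (J n) s β η) → Dc D (c n) β a b d C k B

/-- the inputs of the breaking theorem -/
structure NI (N : ND Y lam) (D : YD I3 Y κ lam) (q : YW I3 Y →₀ ℝ) (𝒰 : Ultrafilter ν)
    (A : Brk64.Nk ν) (c : ∀ n, Cfg (Y × ℝ) (Option κ) lam (ρ n)) : Prop where
  ok : D.OK
  ne : ∀ R, ∀ᶠ n in 𝒰, (A.J R n).Nonempty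
  adm : ∀ᶠ n in 𝒰, AdmOn (c n) D.B D.G (univ ×ˢ A.J 0 n)
  en : ∃ E, ∀ᶠ n in 𝒰, IntegrableOn (eZ D (c n)) (univ ×ˢ A.J 0 n) D.Z.μ ∧
    ∫ x in univ ×ˢ A.J 0 n, eZ D (c n) x ∂D.Z.μ ≤ E
  cmp : ∀ 𝒱 : Ultrafilter (ν × ℝ), Tendsto (Prod.fst : ν × ℝ → ν) 𝒱 𝒰 →
    (∀ R, ∀ᶠ p : ν × ℝ in 𝒱, p.2 ∈ A.J R p.1) →
    ∃ γ Sg v, Lm N D q 𝒱 (fun p : ν × ℝ => sh p.2 (c p.1)) γ Sg v
  dec : Dec N D 𝒰 (A.J 0) c
  frz : ∀ γ : Cfg (Y × ℝ) (Option κ) lam 0, γ.Sol D.B D.G (N.pt D.nk q : Pt _ _ _ 0 0) →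
    (∀ x, eZ D γ x = 0) → ∃ β u, N.Crit D β ∧ Eq0 D.Z γ (cy β) univ u

namespace NI
variable (H : NI N D q 𝒰 A c) {α : Type} {e : α → ν}
include H

theorem adm_sh {l : Filter α} {s : α → ℝ} (he : Tendsto e l 𝒰)
    (hs : ∀ R, ∀ᶠ a in l, s a ∈ A.J R (e a)) (L : ℝ) :
    ∀ᶠ a in l, AdmOn (sh (s a) (c (e a))) D.B D.G (cw Y 0 L) := by
  filter_upwards [he.eventually H.adm, hs (0 + L)] with a a1 a2
  have := admOn_sh (adm_cw a1 a2) (s a)
  rwa [cw_tr (zero_add _).symm] at this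

/-- windows without energy converge to a critical point -/
theorem pt {𝒱 : Ultrafilter α} {s : α → ℝ} (he : Tendsto e 𝒱 𝒰)
    (hs : ∀ R, ∀ᶠ a in 𝒱, s a ∈ A.J R (e a))
    (h0 : ∀ L, ∀ ε > 0, ∀ᶠ a in 𝒱, ∫ x in win Y (s a) L, eZ D (c (e a)) x ∂D.Z.μ ≤ ε) :
    ∃ β, N.Crit D β ∧ ∀ η > 0, ∀ᶠ a in 𝒱, Nr D (c (e a)) (A.J 0 (e a)) (s a) β η := by
  let 𝒲 : Ultrafilter (ν × ℝ) := 𝒱.map fun a => (e a, s a)
  have h1 : Tendsto (Prod.fst : ν × ℝ → ν) 𝒲 𝒰 := he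
  have h2 : ∀ R, ∀ᶠ p : ν × ℝ in 𝒲, p.2 ∈ A.J R p.1 := hs
  obtain ⟨γ, Sg, v, h4⟩ := H.cmp 𝒲 h1 h2
  have ha := H.adm_sh h1 h2
  obtain ⟨h5, h6⟩ := h4.zero H.ok ha fun L => tendsto_order.2 ⟨fun a ha => Eventually.of_forall
    fun _ => ha.trans_le (integral_nonneg (Dgr80.en_nonneg _ _ _)), fun a ha => by
      filter_upwards [h1.eventually H.adm, h2 (0 + L), show ∀ᶠ p : ν × ℝ in 𝒲,
        ∫ x in win Y p.2 L, eZ D (c p.1) x ∂D.Z.μ ≤ a / 2 from h0 L _ (half_pos ha)] with p a1 a2 a3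
      have := (ek_int_sh (win_op _ _).measurableSet ((adm_cw a1 a2).mono (win_cw _ _)) p.2).1
      rw [win_tr (zero_add _).symm] at this
      linarith⟩
  obtain ⟨β, u, h7, h8⟩ := H.frz γ h4.sol h6
  refine ⟨β, h7, fun η hη => ?_⟩
  have k1 := h4.cv.cz (cwin_cpt 0 η⁻¹) (by simp [h5]) (win_op 0 _) (win_cw 0 _) ⌈η⁻¹⌉₊
  have k2 := (k1.comp (G := D.G) (h := fun _ => u) (ξ := fun _ _ => 1) (fun ε hε =>
    Eventually.of_forall fun _ => cl_of_eq0 h8 (win_op _ _) hε.le) (Fx.fixed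
      ((admOn_univ.2 h4.sol.toAdm).mono (subset_univ _)) (cwin_cpt 0 _)
      (Eventually.of_forall fun _ => ⟨win_op _ _, win_cw _ _⟩)) (fx_cy (crit_adm h7) k1.op)
      (bb_circ k1.op _)) η hη
  show ∀ᶠ p : ν × ℝ in 𝒲, Nr D (c p.1) (A.J 0 p.1) p.2 β η
  filter_upwards [k2, h2 (0 + η⁻¹)] with p a1 a2
  exact ⟨Ioo_subset_Icc_self.trans (A.icc_sub a2), (Cl.unsh (ζ := 1 * 1) a1).imp fun _ h => ⟨_, h⟩⟩

/-- **no drift along the critical set** -/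
theorem drift {𝒱 : Ultrafilter α} {T : α → Set ℝ} (he : Tendsto e 𝒱 𝒰)
    (hT : ∀ᶠ a in 𝒱, (T a).Nonempty ∧ (T a).OrdConnected)
    (hs : ∀ R, ∀ᶠ a in 𝒱, T a ⊆ A.J R (e a))
    (h0 : ∀ L, ∀ ε > 0, ∀ᶠ a in 𝒱, ∀ s ∈ T a, ∫ x in win Y s L, eZ D (c (e a)) x ∂D.Z.μ ≤ ε) :
    ∃ β, N.Crit D β ∧ ∀ η > 0, ∀ᶠ a in 𝒱, ∀ s ∈ T a, Nr D (c (e a)) (A.J 0 (e a)) s β η := by
  have key : ∀ s : α → ℝ, (∀ᶠ a in 𝒱, s a ∈ T a) → _ := fun s h => H.pt he
    (fun R => (h.and (hs R)).mono fun _ h => h.2 h.1) fun L ε hε =>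
      (h.and (h0 L ε hε)).mono fun _ h => h.2 _ h.1
  obtain ⟨s, h1⟩ := ev_choice (hT.mono fun _ h => h.1)
  obtain ⟨β, b1, b2⟩ := key s h1
  refine ⟨β, b1, fun η₀ p0 => by_contra fun hc => ?_⟩
  obtain ⟨d, p1, C, -, h2⟩ := H.dec β b1
  obtain ⟨η₂, p2, h3⟩ := h2 0 1 one_pos
  have p3 := lt_min p0 p2
  set η := min η₀ η₂
  have p4 := half_pos p3
  obtain ⟨t, h4⟩ := ev_choice (P := fun a t => t ∈ T a ∧ ¬Nr D (c (e a)) (A.J 0 (e a)) t β (η / 2) ∧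
      ∀ x ∈ uIcc (s a) t, Nr D (c (e a)) (A.J 0 (e a)) x β η) <| by
    filter_upwards [Ultrafilter.eventually_not.2 hc, h1, hT, b2 _ p4] with a a1 a2 a3 a4
    push Not at a1
    obtain ⟨s', a5, a6⟩ := a1
    obtain ⟨t, a7, a8⟩ := exit (inv_pos.2 p3) (P := fun x => Nr D (c (e a)) (A.J 0 (e a)) x β η)
      (Q := fun x => Nr D (c (e a)) (A.J 0 (e a)) x β (η / 2)) (a := s a) (b := s')
      (fun x x' h h' => Nr.mono' h p4 (half_le_self p3.le) (by rw [inv_div, div_eq_mul_inv]; linarith))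
      a4 fun h => a6 (h.mono p4 ((half_le_self p3.le).trans (min_le_left _ _)))
    exact ⟨t, a3.2.uIcc_subset a2 a5 a7, a8⟩
  obtain ⟨β', c1, c2⟩ := key t (h4.mono fun _ h => h.1)
  have a1 := crit_adm b1
  have a2 := crit_adm c1
  obtain ⟨g, ξ, h5⟩ := rig0 a2 a1 fun ε hε => by
    have p5 : 0 < ε / 4 := by positivity
    obtain ⟨R, r1, r0⟩ := (((tendsto_id.const_mul_atTop p1).eventually (Brk64.ev_exp p5 1)).and
      (eventually_ge_atTop 0)).exists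
    have p6 : 0 < min (ε / 4) (R + 1)⁻¹ := lt_min p5 (by positivity)
    have p7 : R + 1 ≤ (min (ε / 4) (R + 1)⁻¹)⁻¹ := by
      simpa using inv_anti₀ p6 (min_le_right _ _)
    have p8 : 0 < min (η / 2) (R + R + (η / 2)⁻¹)⁻¹ := lt_min p4 (by positivity)
    have p9 := inv_anti₀ p8 (min_le_right _ _)
    rw [inv_inv] at p9
    obtain ⟨a, ⟨⟨-, d1, d2⟩, d3, d4⟩, ⟨⟨d5, u, ζ, d6⟩, d7, u', ζ', d8⟩, d9⟩ := ((h4.and
      ((he.eventually h3).and (he.eventually H.adm))).and (((b2 _ p6).and (c2 _ p6)).and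
      (b2 _ p8))).exists
    have f1 : R + R < |t a - s a| := lt_of_not_ge fun h => d1 (d9.mono' p8 (min_le_left _ _) (by
      linarith))
    obtain ⟨β₁, w, ξ, f2, f3⟩ := (d3 _ _ min_le_max fun x hx =>
      (d2 x hx).mono p3 (min_le_right _ _)).mid
    have f4 : ∀ {β₀ : YC Y κ lam} {x y : ℝ} {v ζ}, D.Adm β₀ → |y - x| ≤ R →
        min (s a) (t a) + R ≤ y → y + R ≤ max (s a) (t a) →
        Ioo (x - (min (ε / 4) (R + 1)⁻¹)⁻¹) (x + (min (ε / 4) (R + 1)⁻¹)⁻¹) ⊆ A.J 0 (e a) →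
        Cn D (c (e a)) β₀ v ζ (win Y x (min (ε / 4) (R + 1)⁻¹)⁻¹) (min (ε / 4) (R + 1)⁻¹) →
        ∃ (g : Y × ℝ → CL β₁.m.V β₀.m.V) (ξ : Circle),
          Cl D.Z (cy β₁) (cy β₀) g (fun _ => ξ) (win Y 0 1) 0 (ε / 2) := by
      intro β₀ x y v ζ g0 g1 g2 g3 g4 g5
      have g6 := win_sub (Y := Y) (show |y - x| + 1 ≤ _ from (by linarith : _ ≤ R + 1).trans p7)
      have g7 := (cl0_quot (G := D.G) ((f3 y ⟨by linarith, by linarith⟩).mono (win_op _ _)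
        Subset.rfl le_rfl (show _ ≤ ε / 4 by
          refine le_trans ?_ r1.le
          rw [one_mul, mul_one, Real.exp_le_exp, neg_mul, neg_le_neg_iff]
          exact mul_le_mul_of_nonneg_left (le_min (le_sub_iff_add_le'.2 g2)
            (le_sub_iff_add_le'.2 g3)) p1.le))
        (Cl.mono g5 (win_op _ _) g6 (Nat.zero_le _) (min_le_left _ _))
        (d4.mono (g6.trans (prod_mono_right g4))) ((admOn_univ.2 f2.adm).mono (subset_univ _))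
        ((admOn_univ.2 g0.adm).mono (subset_univ _))).sh y
      rw [win_tr (zero_add _).symm] at g7
      exact ⟨_, _, Cl.mono g7 (win_op _ _) Subset.rfl le_rfl (by linarith)⟩
    have f5 : ∃ y y', |y - s a| ≤ R ∧ |y' - t a| ≤ R ∧ min (s a) (t a) + R ≤ y ∧
        y + R ≤ max (s a) (t a) ∧ min (s a) (t a) + R ≤ y' ∧ y' + R ≤ max (s a) (t a) := by
      rcases le_total (s a) (t a) with h | h
      · rw [abs_of_nonneg (sub_nonneg.2 h)] at f1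
        rw [min_eq_left h, max_eq_right h]
        exact ⟨s a + R, t a - R, by simp [abs_of_nonneg r0], by simp [abs_of_nonneg r0], le_rfl,
          by linarith, by linarith, by linarith⟩
      · rw [abs_of_nonpos (sub_nonpos.2 h)] at f1
        rw [min_eq_right h, max_eq_left h]
        exact ⟨s a - R, t a + R, by simp [abs_of_nonneg r0], by simp [abs_of_nonneg r0],
          by linarith, by linarith, le_rfl, by linarith⟩
    obtain ⟨y, y', g1, g2, g3, g4, g5, g6⟩ := f5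
    obtain ⟨w1, ξ1, k1⟩ := f4 a1 g1 g3 g4 d5 d6
    obtain ⟨w2, ξ2, k2⟩ := f4 a2 g2 g5 g6 d7 d8
    exact ⟨_, _, (add_halves ε) ▸ cl0_quot (G := D.G) k2 k1
      ((admOn_univ.2 f2.adm).mono (subset_univ _)) ((admOn_univ.2 a2.adm).mono (subset_univ _))
      ((admOn_univ.2 a1.adm).mono (subset_univ _))⟩
  obtain ⟨η₃, p5, h6⟩ := nr_act a2 a1 h5 p4
  obtain ⟨a, d1, d2⟩ := (h4.and (c2 _ p5)).exists
  exact d1.2.1 (h6 _ _ _ _ d2)

theorem drift' {l : Filter α} [l.NeBot] {T : α → Set ℝ} (he : Tendsto e l 𝒰)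
    (hT : ∀ᶠ a in l, (T a).Nonempty ∧ (T a).OrdConnected)
    (hs : ∀ R, ∀ᶠ a in l, T a ⊆ A.J R (e a))
    (h0 : ∀ L, ∀ ε > 0, ∀ᶠ a in l, ∀ s ∈ T a, ∫ x in win Y s L, eZ D (c (e a)) x ∂D.Z.μ ≤ ε) :
    ∃ β, N.Crit D β ∧ ∀ η > 0, ∃ᶠ a in l, ∀ s ∈ T a, Nr D (c (e a)) (A.J 0 (e a)) s β η :=
  have h := Ultrafilter.of_le l
  (H.drift (𝒱 := Ultrafilter.of l) (he.mono_left h) (h hT) (fun R => h (hs R))
    fun L ε hε => h (h0 L ε hε)).imp fun _ k => ⟨k.1, fun η hη =>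
      (k.2 η hη).frequently.filter_mono h⟩

end NI

end Crest.Agent.X212.Nck90
end
end

-- ▼ part X212/Nck90/Cen
section

/-!
# X212, necks (helper90), part 3: the centres and the critical points of the gaps
-/

set_option autoImplicit false
set_option linter.unusedSectionVars false
noncomputable section
open scoped Manifold ContDiff Topology InnerProductSpace
open MeasureTheory Set Function Filter

namespace Crest.Agent.X212.Nck90
open An Sob92 Cyf70 Neck67 Cmp73 Pj41 Eqv71 Tmp64 Nd18 Std94 Bki64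
open Brk64 (eI Gd wI)

theorem gap_ne {ν : Type*} {A : Brk64.Nk ν} {𝒰 : Ultrafilter ν} {w : ν → ℝ → ℝ} {k : ℕ}
    {t : Fin k → ν → ℝ} (h : A.Cen 𝒰 w k t) (hne : ∀ R, ∀ᶠ n in 𝒰, (A.J R n).Nonempty)
    (g : Fin (k + 1)) (R : ℝ) : ∀ᶠ n in 𝒰, (A.Gap t g R n).Nonempty := by
  rcases k with _ | k
  · exact (hne R).mono fun n ⟨s, hs⟩ => ⟨s, hs, fun i => i.elim0⟩
  refine Fin.cases ((h.mem_left 0 (le_refl R)).mono fun n hn => ⟨_, hn⟩)
    (fun i => (h.mem_right i (le_refl R)).mono fun n hn => ⟨_, hn⟩) g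

theorem far_of_gap {ν : Type*} {A : Brk64.Nk ν} {k : ℕ} {t : Fin k → ν → ℝ} {g : Fin (k + 1)}
    {R s : ℝ} {n : ν} (h : s ∈ A.Gap t g R n) (i : Fin k) : R ≤ |s - t i n| := by
  rcases lt_or_ge i.castSucc g with e | e
  · linarith [(h.2 i).1 e, le_abs_self (s - t i n)]
  · linarith [(h.2 i).2 e, neg_abs_le (s - t i n)]

variable {E3 : Type} [NormedAddCommGroup E3] [NormedSpace ℝ E3] [FiniteDimensional ℝ E3]
  [MeasurableSpace E3] [BorelSpace E3]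
  {H3 : Type} [TopologicalSpace H3] {I3 : ModelWithCorners ℝ E3 H3} [I3.Boundaryless]
  {Y : Type} [TopologicalSpace Y] [ChartedSpace H3 Y] [IsManifold I3 ∞ Y] [T2Space Y]
  [MeasurableSpace Y] [BorelSpace Y] [SecondCountableTopology Y] [CompactSpace Y]
  {κ : Type} [Fintype κ] {lam : Type} [Fintype lam] {D : YD I3 Y κ lam} {β β' : YC Y κ lam}
  {N : ND Y lam} {q : YW I3 Y →₀ ℝ} {r : ℕ}
  {ν : Type} {𝒰 : Ultrafilter ν} {A : Brk64.Nk ν} {ρ : ν → ℕ}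
  {c : ∀ n, Cfg (Y × ℝ) (Option κ) lam (ρ n)}

/-- the energy of the middle of a long piece -/
theorem Dc.int_le {c : Cfg (Y × ℝ) (Option κ) lam r} {s R L d C B : ℝ} {k : ℕ}
    (h : Dc D c β (s - R) (s + R) d C k B) (hd : 0 < d) (hC : 0 < C) (hL : |L| ≤ R) :
    ∫ x in win Y s L, eZ D c x ∂D.Z.μ ≤
      Real.exp (-(d * (R - |L|))) * (C * (D.F.μ.real univ * (2 * |L|))) := by
  rw [← mul_assoc, mul_comm _ C]
  refine Bki64.int_le (s := s) (abs_nonneg L) (by positivity)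
    ((win_sub (by simpa using le_abs_self L)).trans (win_cw _ _)) fun x hx => ?_
  have a1 := hx.2.1
  have a2 := hx.2.2
  have a3 := le_abs_self L
  rw [abs_of_nonneg (Dgr80.en_nonneg _ _ _ _)]
  refine (h.den x ⟨by linarith, by linarith⟩).1.trans
    (mul_le_mul_of_nonneg_left (Real.exp_le_exp.2 ?_) hC.le)
  rw [neg_mul, neg_le_neg_iff]
  exact mul_le_mul_of_nonneg_left (le_min (by linarith) (by linarith)) hd.le

namespace NI
variable (H : NI N D q 𝒰 A c)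
include H

/-- **the quantum of energy** -/
theorem quant : ∃ ε₁ > 0, ∀ s, A.Deep 𝒰 s → ∀ ε > 0, ∀ L,
    (∀ᶠ n in 𝒰, ε ≤ ∫ x in win Y (s n) L, eZ D (c n) x ∂D.Z.μ) → ∃ R, 0 ≤ R ∧
      ∀ᶠ n in 𝒰, ε₁ ≤ eI D.Z.μ Prod.snd (eZ D (c n)) (Ioc (s n - R) (s n + R)) := by
  by_contra hc
  push Not at hc
  choose s h1 ε h2 L h3 h4 using fun m : ℕ => hc _ (Nat.one_div_pos_of_nat (n := m))
  have := curry_ne (atTop : Filter ℝ) (𝒰 : Filter ν)
  have := curry_ne (atTop : Filter ℕ) ((atTop : Filter ℝ).curry (𝒰 : Filter ν))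
  have ev : ∀ {P : ℕ × ℝ × ν → Prop}, (∀ᶠ m in atTop, ∀ᶠ R in atTop, ∀ᶠ n in 𝒰, P (m, R, n)) →
      ∀ᶠ a in (atTop : Filter ℕ).curry ((atTop : Filter ℝ).curry (𝒰 : Filter ν)), P a := fun h => h
  obtain ⟨E, hE⟩ := H.en
  obtain ⟨β, b1, b2⟩ := H.drift' (l := (atTop : Filter ℕ).curry ((atTop : Filter ℝ).curry 𝒰))
    (e := fun a => a.2.2) (T := fun a => Icc (s a.1 a.2.2 - a.2.1) (s a.1 a.2.2 + a.2.1))
    (fun U hU => ev (.of_forall fun _ => .of_forall fun _ => hU))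
    (ev (.of_forall fun m => (eventually_ge_atTop 0).mono fun R h => .of_forall fun n =>
      ⟨nonempty_Icc.2 (by linarith), ordConnected_Icc⟩))
    (fun R' => ev (.of_forall fun m => .of_forall fun R => (h1 m (R' + R)).mono fun n h =>
      A.icc_sub h)) fun L' ε' hε => ev ((tendsto_one_div_add_atTop_nhds_zero_nat.eventually
        (ge_mem_nhds hε)).mono fun m hm => (eventually_ge_atTop 0).mono fun R h => by
      have a0 := abs_nonneg L'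
      have a1 := le_abs_self L'
      filter_upwards [h4 m (R + |L'|) (by linarith), hE,
        h1 m (0 + (R + |L'|))] with n a2 a3 a4 x hx
      refine le_trans ?_ (a2.le.trans hm)
      rw [eI, snd_pre]
      refine setIntegral_mono_set (a3.1.mono_set (prod_mono_right (Ioc_subset_Icc_self.trans
        (A.icc_sub a4)))) (Eventually.of_forall (Dgr80.en_nonneg _ _ _))
        (LE.le.eventuallyLE fun y hy => ⟨trivial, ?_, ?_⟩)
      · linarith [hy.2.1, hx.1]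
      · linarith [hy.2.2, hx.2])
  obtain ⟨d, p1, C, p2, k1⟩ := H.dec β b1
  obtain ⟨η, p3, k2⟩ := k1 0 1 one_pos
  refine (b2 η p3) (ev (.of_forall fun m => ?_))
  filter_upwards [((tendsto_atTop_add_const_right _ (-|L m|) tendsto_id).const_mul_atTop p1).eventually
    (Brk64.ev_exp (h2 m) (C * (D.F.μ.real univ * (2 * |L m|)))), eventually_ge_atTop |L m|]
    with R a1 a2
  filter_upwards [k2, h3 m] with n a3 a4 a5
  have := (a3 _ _ (by linarith [abs_nonneg (L m)]) a5).int_le p1 p2 a2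
  simp only [id, ← sub_eq_add_neg] at a1
  linarith

/-- the centres and the critical points of the gaps -/
theorem exists_cen : ∃ (w : ν → ℝ → ℝ) (k : ℕ) (t : Fin k → ν → ℝ)
    (b : Fin (k + 1) → YC Y κ lam), A.Cen 𝒰 w k t ∧ (∀ g, N.Crit D (b g)) ∧
      A.Chain 𝒰 (fun n s β η => Nr D (c n) (A.J 0 n) s β η) t b ∧ ∀ i, ∃ ε > 0, ∃ L,
        ∀ᶠ n in 𝒰, ε ≤ ∫ x in win Y (t i n) L, eZ D (c n) x ∂D.Z.μ := by
  classical
  obtain ⟨E, hE'⟩ := H.en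
  have hτ : Measurable (Prod.snd : Y × ℝ → ℝ) := measurable_snd
  have hf : ∀ᶠ n in 𝒰, Gd D.Z.μ Prod.snd (eZ D (c n)) (A.J 0 n) E := hE'.mono fun n hn =>
    ⟨Dgr80.en_nonneg _ _ _, by rw [snd_pre]; exact hn.1, by rw [eI, snd_pre]; exact hn.2⟩
  have hE : 0 ≤ E := hf.exists.choose_spec.nonneg
  let w : ν → ℝ → ℝ := fun n => wI D.Z.μ Prod.snd
    (if Gd D.Z.μ Prod.snd (eZ D (c n)) (A.J 0 n) E then eZ D (c n) else 0) (A.J 0 n)
  have hw : ∀ᶠ n in 𝒰, Gd D.Z.μ Prod.snd (eZ D (c n)) (A.J 0 n) E ∧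
      w n = wI D.Z.μ Prod.snd (eZ D (c n)) (A.J 0 n) :=
    hf.mono fun n hn => ⟨hn, by simp only [w, if_pos hn]⟩
  have hsel : A.Sel 𝒰 w := Or.inr fun n ε hε => by
    refine Gd.cpt (E := E) ?_ hτ (A.cl 0 n) hε
    split_ifs with h
    exacts [h, Gd.zero hE]
  have sub : ∀ {n s R}, s ∈ A.J (0 + R) n → Ioo (s - R) (s + R) ⊆ A.J 0 n := fun h =>
    Ioo_subset_Icc_self.trans (A.icc_sub h)
  have car : ∀ s, A.Deep 𝒰 s → Brk64.Carry 𝒰 w s → ∃ ε > 0,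
      ∃ L, ∀ᶠ n in 𝒰, ε ≤ ∫ x in win Y (s n) L, eZ D (c n) x ∂D.Z.μ := fun s hs ⟨ε, hε, h⟩ => by
    obtain ⟨L, hL⟩ := (Brk64.ev_exp (half_pos hε) E).exists
    refine ⟨_, half_pos hε, L, ?_⟩
    filter_upwards [h, hw, hs (0 + L)] with n a1 a2 a3
    rw [a2.2] at a1
    have := a2.1.w_le hτ measurableSet_Ioo (sub a3) Subset.rfl
    rw [eI, snd_pre] at this
    linarith
  obtain ⟨ε₁, p1, h1⟩ := H.quant
  obtain ⟨k, t, -, h2⟩ := A.exists_cen (en := fun n s t => eI D.Z.μ Prod.snd (eZ D (c n)) (Ioc s t))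
    hE p1 (hf.mono fun n hn => ⟨fun s t t' u hs hu h2 h3 h4 => by
      have h5 := Ioc_subset_Icc_self.trans ((A.oc 0 n).out hs hu)
      have h6 : Ioc s t ⊆ Ioc s u := Ioc_subset_Ioc_right (h3.trans h4)
      have h7 : Ioc t' u ⊆ Ioc s u := Ioc_subset_Ioc_left (h2.trans h3)
      refine le_trans (le_of_eq ?_) (hn.e_mono (union_subset h6 h7) h5)
      simp only [eI, preimage_union]
      exact (setIntegral_union ((Ioc_disjoint_Ioc_of_le h3).preimage _) (hτ measurableSet_Ioc)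
        (hn.int.mono_set (preimage_mono (h6.trans h5)))
        (hn.int.mono_set (preimage_mono (h7.trans h5)))).symm, fun s t hs ht _ =>
      ⟨hn.e_nn, (hn.e_mono (Ioc_subset_Icc_self.trans ((A.oc 0 n).out hs ht)) Subset.rfl).trans
        hn.le⟩⟩) hsel fun s hs hc => let ⟨ε, hε, L, h⟩ := car s hs hc; h1 s hs ε hε L h
  have := curry_ne (atTop : Filter ℝ) (𝒰 : Filter ν)
  have ev : ∀ {P : ℝ × ν → Prop}, (∀ᶠ R in atTop, ∀ᶠ n in 𝒰, P (R, n)) →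
      ∀ᶠ a in (atTop : Filter ℝ).curry (𝒰 : Filter ν), P a := fun h => h
  have key : ∀ g, ∃ β, N.Crit D β ∧ ∀ η > 0, ∃ᶠ a in (atTop : Filter ℝ).curry (𝒰 : Filter ν),
      ∀ s ∈ A.Gap t g a.1 a.2, Nr D (c a.2) (A.J 0 a.2) s β η := fun g => by
    refine H.drift' (e := Prod.snd) (T := fun a => A.Gap t g a.1 a.2)
      (tendsto_snd.mono_left curry_le_prod)
      (ev (.of_forall fun R => (gap_ne h2 H.ne g R).mono fun n h => ⟨h, A.gap_oc _ _ _ _⟩))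
      (fun R' => ev ((eventually_ge_atTop R').mono fun R h => .of_forall fun n s hs =>
        A.anti h n hs.1)) fun L ε hε => ?_
    obtain ⟨R₀, h3⟩ := h2.gap _ (mul_pos (Real.exp_pos (-L)) hε)
    refine ev (((eventually_ge_atTop R₀).and (eventually_ge_atTop (0 + L))).mono fun R h => ?_)
    filter_upwards [h3, hw] with n a1 a2 s hs
    have a3 := a1 s (A.anti h.1 n hs.1) fun i => h.1.trans (far_of_gap hs i)
    rw [a2.2] at a3
    have := lt_of_mul_lt_mul_left ((a2.1.le_w hτ (sub (A.anti h.2 n hs.1))).trans_lt a3)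
      (Real.exp_pos _).le
    rw [eI, snd_pre] at this
    exact this.le
  choose b h3 h4 using key
  refine ⟨w, k, t, b, h2, h3, fun η hη => ?_, fun i => car _ (h2.deep i) (h2.carry i)⟩
  choose R h5 using fun g => ((frequently_curry_iff _).1 (h4 g η hη)).exists
  obtain ⟨R', a1, a2⟩ := ((eventually_ge_atTop 0).and (eventually_all.2 fun g =>
    eventually_ge_atTop (R g))).exists
  exact ⟨R', a1, eventually_all.2 fun g => (Ultrafilter.frequently_iff_eventually.1 (h5 g)).mono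
    fun n h s hs => h s (A.gap_anti _ _ (a2 g) n hs)⟩

end NI

end Crest.Agent.X212.Nck90
end
end

-- ▼ part X212/Nck90/Cs
section

/-!
# X212, necks (helper90), part 4: classes of critical points with phases, chains between classes
-/

set_option autoImplicit false
set_option linter.unusedSectionVars false
noncomputable section
open scoped Manifold ContDiff Topology InnerProductSpace
open MeasureTheory Set Function Filter

namespace Crest.Agent.X212.Nck90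
open An Sob92 Cyf70 Neck67 Cmp73 Pj41 Eqv71 Tmp64 Nd18 Std94 Bki64

section gen
variable {E : Type} [NormedAddCommGroup E] [NormedSpace ℝ E] [FiniteDimensional ℝ E]
  [MeasurableSpace E] [BorelSpace E]
  {HM : Type} [TopologicalSpace HM] {I : ModelWithCorners ℝ E HM}
  {M : Type} [TopologicalSpace M] [ChartedSpace HM M] [IsManifold I ∞ M]
  [MeasurableSpace M] {ι : Type} [Fintype ι] {lam : Type} [Fintype lam] {r r' r'' : ℕ}
  {B : Base M ι lam} {G : Geo I M ι lam} {α : Type} {ρ : α → ℕ} {l : Filter α}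
  {S : α → Set M} {k : ℕ} {c : ∀ n, Cfg M ι lam (ρ n)} {c' : Cfg M ι lam r'}
  {c'' : Cfg M ι lam r''} {u : ∀ n, M → CL (c n).m.V c'.m.V}
  {u' : ∀ n, M → CL (c n).m.V c''.m.V}

/-- closeness passes to a limit -/
theorem quot_ph {ζ ξ : α → Circle} {η δ : ℝ} (H : CZ G.F l S k c c' u fun n _ => ξ n)
    (H' : ∀ᶠ n in l, Cl G.F (c n) c'' (u' n) (fun _ => ζ n) (S n) k η)
    (h0 : ∀ᶠ n in l, AdmOn (c n) B G (S n)) (h1 : Fx B G l S k c') (h2 : Fx B G l S k c'')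
    (hδ : 0 < δ) : ∀ᶠ n in l,
      Cl G.F c' c'' (fun x => u' n x ∘L ad (u n x)) (fun _ => ζ n / ξ n) (S n) k (η + δ) := by
  have ht : ∀ᶠ n in l, Iso0 I c'.m c''.m (S n) fun x => u' n x ∘L ad (u n x) := by
    filter_upwards [H.iso, H', h0, h1.adm] with n a b d e using (a.symm d.ok e.ok).trans b.iso
  have e1 : ∀ a, ∀ᶠ n in l, ∀ x ∈ S n, Bki64.cov G.F c' c'' (fun x => u' n x ∘L ad (u n x)) a x =
      dA G.F (c n) c'' (u' n) a x ∘L (u' n x ∘L ad (u n x)) +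
        (u' n x ∘L ad (u n x)) ∘L ad (dA G.F (c n) c' (u n) a x) := fun a => by
    filter_upwards [H.iso, H', h0, h1.adm] with n a' b d e x hx
      using cov_quot a' b.iso b.op d e hx a
  have b1 : ∀ a, BB G.F.toPre l S k fun n => dA G.F (c n) c'' (u' n) a := fun a =>
    ⟨η, H'.mono fun _ h => ⟨h.op, h.A a⟩⟩
  have hb := (bb_of_cov H.op ht h1 h2 fun j hj hb a => ((((b1 a).of_le hj).comp hb).add
    (hb.comp ((H.A a).of_le hj).bb.ad)).congr (e1 a)).of_le k.le_succ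
  have z1 := eventually_all.2 fun a => ((hb.compZ (H.A a).ad).comp hb.ad) δ hδ
  have z2 := ((bb_circ H.op fun n => ζ n / ξ n).clm (csB c''.m.J)).appZ (hb.appZ H.P) δ hδ
  filter_upwards [H.iso, H', ht, h2.adm, eventually_all.2 e1, z1, z2] with n a b d e f g h
  refine ⟨b.op, d, fun i => (Lb.add b.op (b.A i) (g i).2).congr b.op fun x hx => ?_,
    ((Lb.sub' b.op b.P h.2).mono (by rw [abs_of_pos hδ])).congr b.op fun x hx =>
      dP_quot e.ok.Jsq a b.iso d hx (ξ n) (ζ n)⟩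
  rw [dA, f i x hx, ← ad_trn, ContinuousLinearMap.add_comp, ContinuousLinearMap.comp_assoc,
    (d.iso x hx).tgt, dA, ContinuousLinearMap.comp_assoc, ← ad_trn, (b.iso.iso x hx).symm.idem]

end gen

variable {E3 : Type} [NormedAddCommGroup E3] [NormedSpace ℝ E3] [FiniteDimensional ℝ E3]
  [MeasurableSpace E3] [BorelSpace E3]
  {H3 : Type} [TopologicalSpace H3] {I3 : ModelWithCorners ℝ E3 H3} [I3.Boundaryless]
  {Y : Type} [TopologicalSpace Y] [ChartedSpace H3 Y] [IsManifold I3 ∞ Y] [T2Space Y]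
  [MeasurableSpace Y] [BorelSpace Y] [SecondCountableTopology Y] [CompactSpace Y]
  {κ : Type} [Fintype κ] {lam : Type} [Fintype lam] {D : YD I3 Y κ lam}
  {β β' β'' : YC Y κ lam} {ζ ζ' ζ'' : Circle} {N : ND Y lam} {q : YW I3 Y →₀ ℝ} {r : ℕ}

theorem exists_cn (k : ℕ) {ε : ℝ} (hε : 0 < ε) : ∃ η > 0, k ≤ ⌈η⁻¹⌉₊ ∧ η ≤ ε :=
  let ⟨_, h⟩ := (ev_eta k hε).exists
  ⟨_, Nat.one_div_pos_of_nat, h⟩

theorem cz_of_cn {α : Type} {l : Filter α} {ρ : α → ℕ} {c : ∀ n, Cfg (Y × ℝ) (Option κ) lam (ρ n)}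
    {S : α → Set (Y × ℝ)} {u : ∀ n, Y × ℝ → CL (c n).m.V β.m.V} {ζ : α → Circle}
    (h : ∀ η > 0, ∀ᶠ n in l, Cn D (c n) β (u n) (ζ n) (S n) η) (k : ℕ) :
    CZ D.Z l S k c (cy β) u fun n _ => ζ n := fun _ hε =>
  let ⟨η, h0, h1, h2⟩ := exists_cn k hε
  (h η h0).mono fun _ h => Cl.mono h h.op Subset.rfl h1 h2

theorem stb_div (hβ : D.Adm β) (hβ' : D.Adm β') (hβ'' : D.Adm β'') {g g'} (h : Stb D β β' g ζ)
    (h' : Stb D β β'' g' ζ') : ∃ w, Stb D β' β'' w (ζ' / ζ) :=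
  stb_of_eta hβ' hβ'' one_pos fun η hη => ⟨_, cy β, 0, _, _, ζ, ζ', (admOn_univ.2
    hβ.adm).mono (subset_univ _), h.cl (win_op _ _) hη.le, h'.cl (win_op _ _) hη.le,
      by simpa using hη.le, by simpa using hη.le⟩

/-! ### chains -/

theorem brk_trans {x x' : ℝ} {j j' : ℕ} (h : N.Brk D q β ζ β' ζ' x j)
    (h' : N.Brk D q β' ζ' β'' ζ'' x' j') : N.Brk D q β ζ β'' ζ'' (x + x') (j + j') := by
  induction h with
  | nil => simpa using h'
  | bub _ ih => simpa [add_assoc, add_comm, add_left_comm] using (ih h').bub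
  | mov c h1 h2 h3 _ ih =>
    simpa [add_assoc, add_comm, add_left_comm] using ND.Brk.mov c h1 h2 h3 (ih h')

theorem brk_bubs (β : YC Y κ lam) (ζ : Circle) : ∀ m : ℕ, N.Brk D q β ζ β ζ m m
  | 0 => by simpa using ND.Brk.nil β ζ
  | m + 1 => by simpa using (brk_bubs β ζ m).bub

variable (Y κ lam) in
/-- sets of configurations with phases -/
abbrev Pc : Type := YC Y κ lam → Circle → Prop

variable {𝒜 𝒜' 𝒜'' : Pc Y κ lam}

/-- an isomorphism class of critical points with phases -/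
structure Cs (N : ND Y lam) (D : YD I3 Y κ lam) (𝒜 : Pc Y κ lam) : Prop where
  ne : ∃ β ζ, 𝒜 β ζ
  crit : ∀ {β ζ}, 𝒜 β ζ → N.Crit D β
  stb : ∀ {β ζ β' ζ'}, 𝒜 β ζ → 𝒜 β' ζ' → ∃ g, Stb D β β' g (ζ' / ζ)
  act : ∀ {β ζ β' g ξ}, 𝒜 β ζ → N.Crit D β' → Stb D β β' g ξ → 𝒜 β' (ξ * ζ)

theorem Cs.ext (h : Cs N D 𝒜) (h' : Cs N D 𝒜') (a : 𝒜 β ζ) (a' : 𝒜' β ζ) : 𝒜 = 𝒜' := by
  have key : ∀ {𝒜 𝒜' : Pc Y κ lam}, Cs N D 𝒜 → Cs N D 𝒜' → 𝒜 β ζ → 𝒜' β ζ → ∀ β' ζ', 𝒜 β' ζ' →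
      𝒜' β' ζ' := fun h h' a a' β' ζ' b => by
    obtain ⟨g, hg⟩ := h.stb a b
    simpa using h'.act a' (h.crit b) hg
  exact funext₂ fun β' ζ' => propext ⟨key h h' a a' β' ζ', key h' h a' a β' ζ'⟩

/-- a chain between classes -/
def Ch (N : ND Y lam) (D : YD I3 Y κ lam) (q : YW I3 Y →₀ ℝ) (𝒜 𝒜' : Pc Y κ lam) (x : ℝ) (j : ℕ) :
    Prop :=
  (∀ β ζ β' ζ', 𝒜 β ζ → 𝒜' β' ζ' → N.Brk D q β ζ β' ζ' x j) ∨
    (𝒜 = 𝒜' ∧ ∀ β ζ, N.Brk D q β ζ β ζ x j)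

variable {x x' : ℝ} {j j' : ℕ}

theorem Ch.bubs (𝒜 : Pc Y κ lam) (m : ℕ) : Ch N D q 𝒜 𝒜 m m := .inr ⟨rfl, fun β ζ => brk_bubs β ζ m⟩

theorem Ch.nil (𝒜 : Pc Y κ lam) : Ch N D q 𝒜 𝒜 0 0 := by simpa using Ch.bubs (q := q) 𝒜 0

theorem Ch.trans (h : Ch N D q 𝒜 𝒜' x j) (h' : Ch N D q 𝒜' 𝒜'' x' j') (ne : ∃ β ζ, 𝒜' β ζ) :
    Ch N D q 𝒜 𝒜'' (x + x') (j + j') := by
  obtain ⟨β, ζ, a⟩ := ne
  rcases h with h | ⟨rfl, h⟩ <;> rcases h' with h' | ⟨rfl, h'⟩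
  · exact .inl fun _ _ _ _ b b' => brk_trans (h _ _ _ _ b a) (h' _ _ _ _ a b')
  · exact .inl fun _ _ _ _ b b' => brk_trans (h _ _ _ _ b b') (h' _ _)
  · exact .inl fun _ _ _ _ b b' => brk_trans (h _ _) (h' _ _ _ _ b b')
  · exact .inr ⟨rfl, fun _ _ => brk_trans (h _ _) (h' _ _)⟩

/-- a chain of configurations -/
theorem Ch.brk (h : Ch N D q 𝒜 𝒜' x j) (ne : ∃ β ζ, 𝒜 β ζ) (ne' : ∃ β ζ, 𝒜' β ζ) :
    ∃ β ζ β' ζ', 𝒜 β ζ ∧ 𝒜' β' ζ' ∧ N.Brk D q β ζ β' ζ' x j := by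
  obtain ⟨β, ζ, a⟩ := ne
  obtain ⟨β', ζ', a'⟩ := ne'
  rcases h with h | ⟨rfl, h⟩
  exacts [⟨_, _, _, _, a, a', h _ _ _ _ a a'⟩, ⟨_, _, _, _, a, a, h _ _⟩]

/-! ### limits of critical points -/

variable {ν : Type} {𝒰 : Ultrafilter ν} {b : ν → YC Y κ lam} {z : ν → Circle}

/-- the limits of the family `(b n, z n)` -/
def Lc (N : ND Y lam) (D : YD I3 Y κ lam) (l : Filter ν) (b : ν → YC Y κ lam) (z : ν → Circle) :
    Pc Y κ lam := fun β ζ =>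
  N.Crit D β ∧ ∀ η > 0, ∀ᶠ n in l, ∃ g, Cn D (cy (b n)) β g (ζ / z n) (win Y 0 7) η

theorem Lc.cs (hb : ∀ᶠ n in 𝒰, D.Adm (b n)) (h : Lc N D 𝒰 b z β ζ) : Cs N D (Lc N D 𝒰 b z) := by
  refine ⟨⟨_, _, h⟩, fun h => h.1, fun {β ζ β' ζ'} h h' => ?_, fun {β ζ β' g ξ} h h1 h2 =>
    ⟨h1, fun η hη => ?_⟩⟩
  · obtain ⟨ξ, -, hξ⟩ := isCompact_univ.ultrafilter_le_nhds (𝒰.map z) (by simp)
    have k : ∀ ζ : Circle, Tendsto (fun n => ζ / z n) 𝒰 (𝓝 (ζ / ξ)) := fun ζ =>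
      tendsto_const_nhds.div' hξ
    simpa using stb_of_eta (crit_adm h.1) (crit_adm h'.1) (L := 7) (ξ := ζ / ξ) (ξ' := ζ' / ξ)
      (by norm_num) fun η hη => by
        obtain ⟨n, ⟨a1, ⟨g, a2⟩, g', a3⟩, a4, a5⟩ := ((hb.and ((h.2 η hη).and (h'.2 η hη))).and
          (((k ζ).eventually (Metric.closedBall_mem_nhds _ hη)).and
            ((k ζ').eventually (Metric.closedBall_mem_nhds _ hη)))).exists
        exact ⟨_, cy (b n), 0, g, g', _, _, (admOn_univ.2 a1.adm).mono (subset_univ _), a2, a3, a4, a5⟩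
  · obtain ⟨η', h3, h4⟩ := act_eta (crit_adm h.1) (crit_adm h1) hη
    exact (h.2 η' h3).mono fun n ⟨w, hw⟩ => ⟨_, mul_div_assoc ξ ζ (z n) ▸ h4 _ _ _ w _ _ _ h2 hw⟩

/-- a constant family -/
theorem Lc.const {l : Filter ν} (h : N.Crit D β) : Lc N D l (fun _ => β) (fun _ => ζ) β ζ :=
  ⟨h, fun _ hη => .of_forall fun _ => ⟨_, (div_self' ζ).symm ▸
    (Stb.refl (crit_adm h)).cl (win_op _ _) hη.le⟩⟩

theorem Lc.congr {b' : ν → YC Y κ lam} {z' : ν → Circle} {l : Filter ν}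
    (h : ∀ᶠ n in l, b n = b' n ∧ z n = z' n) : Lc N D l b z = Lc N D l b' z' :=
  funext₂ fun β ζ => propext (and_congr_right fun _ => forall₂_congr fun η _ =>
    eventually_congr (h.mono fun n hn => by rw [hn.1, hn.2]))

/-- the limit at an end of a configuration which is close to `β` -/
theorem cn_end (hβ : D.Adm β) (hβ' : D.Adm β') {l : Filter ℝ} [l.NeBot] (hl : IsEnd l)
    {c : Cfg (Y × ℝ) (Option κ) lam r} {u : Y × ℝ → CL c.m.V β'.m.V} {T : Set ℝ}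
    (hc : AdmOn c D.B D.G (univ ×ˢ T))
    (h : ∀ k, ∀ η > 0, ∃ S ∈ l, S ⊆ T ∧ D.Cls c β' u ζ' S k η) {η : ℝ} (hη : 0 < η)
    (h' : ∀ᶠ s in l, ∃ w, Cn D c β w ζ (win Y s 7) (η / 2)) :
    ∃ g, Cn D (cy β') β g (ζ / ζ') (win Y 0 7) η := by
  obtain ⟨w, hw⟩ := ev_choice h'
  have k := cz_of_cn (c := fun _ => c) (ρ := fun _ => r) (u := fun _ => u) (ζ := fun _ => ζ')
    (fun η hη => cn_of_lim hβ' hl hc h hη 7) ⌈η⁻¹⌉₊
  obtain ⟨S, h1, h2, -⟩ := h 0 1 one_pos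
  obtain ⟨s, hs⟩ := (quot_ph (G := D.G) (ζ := fun _ => ζ) k (hw.mono fun _ h => Cl.mono h h.op
    Subset.rfl (Nat.ceil_mono (inv_anti₀ (half_pos hη) (half_le_self hη.le))) le_rfl)
    ((hl.ev h1 7).mono fun s hs => hc.mono (prod_mono_right (Ioo_subset_Icc_self.trans
      (hs.trans h2)))) (fx_cy hβ' k.op) (fx_cy hβ k.op) (half_pos hη)).exists
  have := hs.sh s
  rw [win_tr (zero_add _).symm, add_halves] at this
  exact ⟨_, this⟩

end Crest.Agent.X212.Nck90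
end
end

-- ▼ part X212/Nck90/Out
section

/-!
# X212, necks (helper90), part 5: the breaking theorem (after helper64's `Bki64/Brk`)
-/

set_option autoImplicit false
set_option linter.unusedSectionVars false
noncomputable section
open scoped Manifold ContDiff Topology InnerProductSpace
open MeasureTheory Set Function Filter

namespace Crest.Agent.X212.Nck90
open An Sob92 Cyf70 Neck67 Cmp73 Pj41 Eqv71 Tmp64 Nd18 Std94 Bki64
open Brk64 (eI)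

variable {E3 : Type} [NormedAddCommGroup E3] [NormedSpace ℝ E3] [FiniteDimensional ℝ E3]
  [MeasurableSpace E3] [BorelSpace E3]
  {H3 : Type} [TopologicalSpace H3] {I3 : ModelWithCorners ℝ E3 H3} [I3.Boundaryless]
  {Y : Type} [TopologicalSpace Y] [ChartedSpace H3 Y] [IsManifold I3 ∞ Y] [T2Space Y]
  [MeasurableSpace Y] [BorelSpace Y] [SecondCountableTopology Y] [CompactSpace Y]
  {κ : Type} [Fintype κ] {lam : Type} [Fintype lam] {D : YD I3 Y κ lam} {β β' : YC Y κ lam}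
  {ζ ζ' : Circle} {N : ND Y lam} {q : YW I3 Y →₀ ℝ} {r : ℕ} {ν : Type} {𝒰 : Ultrafilter ν}
  {A : Brk64.Nk ν} {ρ : ν → ℕ} {c : ∀ n, Cfg (Y × ℝ) (Option κ) lam (ρ n)}

/-- the output of the breaking theorem: centres `t`, critical points `b`, limits `γ` -/
structure NO (N : ND Y lam) (D : YD I3 Y κ lam) (q : YW I3 Y →₀ ℝ) (𝒰 : Ultrafilter ν)
    (A : Brk64.Nk ν) (c : ∀ n, Cfg (Y × ℝ) (Option κ) lam (ρ n)) where
  k : ℕ
  t : Fin k → ν → ℝ
  b : Fin (k + 1) → YC Y κ lam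
  γ : Fin k → Cfg (Y × ℝ) (Option κ) lam 0
  Sg : Fin k → Set (Y × ℝ)
  v : ∀ i n, Y × ℝ → CL (c n).m.V (γ i).m.V
  crit : ∀ g, N.Crit D (b g)
  cen : ∃ w, A.Cen 𝒰 w k t
  near : A.Chain 𝒰 (fun n s β η => Nr D (c n) (A.J 0 n) s β η) t b
  lm : ∀ i, Lm N D q 𝒰 (fun n => sh (t i n) (c n)) (γ i) (Sg i) (v i)
  car : ∀ i, ∃ ε > 0, ∃ L, ∀ᶠ n in 𝒰, ε ≤ ∫ x in win Y (t i n) L, eZ D (c n) x ∂D.Z.μ

/-- **Breaking** -/
theorem NI.out (H : NI N D q 𝒰 A c) : Nonempty (NO N D q 𝒰 A c) := by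
  obtain ⟨w, k, t, b, h1, h0, h2, h3⟩ := H.exists_cen
  choose γ Sg v h using fun i => H.cmp (𝒰.map fun n => (n, t i n)) tendsto_id (h1.deep i)
  exact ⟨k, t, b, γ, Sg, fun i n => v i (n, t i n), h0, ⟨w, h1⟩, h2,
    fun i => ⟨(h i).sol, (h i).cv, (h i).conc, (h i).loss⟩, h3⟩

theorem NI.phase (H : NI N D q 𝒰 A c) (hβ : N.Crit D β) {η : ℝ} (hη : 0 < η) : ∃ η' > 0,
    ∀ᶠ n in 𝒰, ∀ T, IsClosed T → T.OrdConnected → (∀ s ∈ T, Nr D (c n) (A.J 0 n) s β η') →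
      ∃ ζ, ∀ s, Icc (s - 7) (s + 7) ⊆ T → ∃ w, Cn D (c n) β w ζ (win Y s 7) η := by
  obtain ⟨η1, p1, H1⟩ := phase_eta (crit_adm hβ) hη
  obtain ⟨d, -, C, -, H2⟩ := H.dec β hβ
  obtain ⟨η2, p3, H3⟩ := H2 ⌈η1⁻¹⌉₊ η1 p1
  refine ⟨η2, p3, H3.mono fun n hn T h1 h2 h3 => ?_⟩
  obtain ⟨ζ, h4⟩ := Brk64.exists_clu (Q := fun (m : ℕ) (ζ : Circle) => ∃ u,
      ∀ s ∈ T ∩ Icc (-(m : ℝ)) m, Cn D (c n) β u ζ (win Y s 1) η1) fun m => by
    obtain ⟨a, b, e⟩ := Brk64.icc_piece h1 h2 m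
    rcases lt_or_ge b a with h | h
    · exact ⟨1, 0, by simp [e, Icc_eq_empty_of_lt h]⟩
    obtain ⟨u, ζ, h4⟩ := (hn a b h fun s hs => h3 s (e ▸ hs :).1).one
    exact ⟨ζ, u, fun s hs => h4 s (e ▸ hs)⟩
  refine ⟨ζ, fun s hs => ?_⟩
  obtain ⟨m, h5, ξ, ⟨u, h6⟩, h7⟩ := h4 η1 p1 ⌈|s| + 7⌉₊
  have h8 := Nat.ceil_le.1 h5
  exact ⟨u, H1 _ _ _ u ξ ζ h7 (Cl.of_local (win_op _ _) fun x hx => ⟨win Y x.2 1, u, _,
    ⟨trivial, by linarith, by linarith⟩, .rfl, .rfl, h6 x.2 ⟨hs (Ioo_subset_Icc_self hx.2),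
      by linarith [hx.2.1, neg_abs_le s], by linarith [hx.2.2, le_abs_self s]⟩⟩)⟩

namespace NO
variable (o : NO N D q 𝒰 A c)

/-- the class of the gap `g` -/
def P (g : Fin (o.k + 1)) : Pc Y κ lam := fun β ζ => N.Crit D β ∧ Pg D 𝒰 c (A.Gap o.t g) β ζ

/-- `m` is the level lost at the centre `i` -/
def IsM (i : Fin o.k) (m : ℕ) : Prop := (m = 0 ↔ o.Sg i = ∅) ∧ ∀ᶠ R in atTop,
  Tendsto (fun n => ∫ x in cw Y 0 R, kZ D (sh (o.t i n) (c n)) x ∂D.Z.μ) 𝒰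
    (𝓝 (∫ x in cw Y 0 R, kZ D (o.γ i) x ∂D.Z.μ + m))

/-- the level lost at the centre `i` -/
def m (i : Fin o.k) : ℕ := Classical.epsilon (o.IsM i)

/-- the total level -/
def lev : ℝ := ∑ i, ((o.γ i).kap D.B D.G + o.m i)

open Classical in
/-- the length of the chain -/
def len : ℕ := ∑ i, (o.m i + if D.Moves (o.γ i) then 1 else 0)

theorem deep (i : Fin o.k) : A.Deep 𝒰 (o.t i) := o.cen.choose_spec.deep i

theorem sep {i j : Fin o.k} (h : i < j) : Brk64.Rt 𝒰 (o.t i) (o.t j) := o.cen.choose_spec.sep i j h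

theorem ev_right (i : Fin o.k) (R : ℝ) :
    ∀ᶠ s in atTop, ∀ᶠ n in 𝒰, o.t i n + s ∈ A.Gap o.t i.succ R n :=
  (eventually_ge_atTop R).mono fun _ => o.cen.choose_spec.mem_right i

theorem ev_left (i : Fin o.k) (R : ℝ) :
    ∀ᶠ s in atBot, ∀ᶠ n in 𝒰, o.t i n + s ∈ A.Gap o.t i.castSucc R n :=
  (eventually_le_atBot (-R)).mono fun s h => by
    simpa using o.cen.choose_spec.mem_left i (show R ≤ -s by linarith)

/-- the first gap, seen from the left end `a` of the neck -/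
theorem ev_first {a : ν → ℝ} (h : ∀ R, ∀ᶠ s in atTop, ∀ᶠ n in 𝒰, a n + s ∈ A.J R n)
    (h' : ∀ t, A.Deep 𝒰 t → Brk64.Rt 𝒰 a t) (R : ℝ) :
    ∀ᶠ s in atTop, ∀ᶠ n in 𝒰, a n + s ∈ A.Gap o.t 0 R n := (h R).mono fun s hs =>
  (hs.and (eventually_all.2 fun i => (h' _ (o.deep i)).eventually_ge_atTop (s + R))).mono
    fun _ h => ⟨h.1, fun i => ⟨fun e => absurd e (Fin.not_lt_zero _), fun _ => by linarith [h.2 i]⟩⟩

/-- the last gap, seen from the right end `a` of the neck -/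
theorem ev_last {a : ν → ℝ} (h : ∀ R, ∀ᶠ s in atBot, ∀ᶠ n in 𝒰, a n + s ∈ A.J R n)
    (h' : ∀ t, A.Deep 𝒰 t → Brk64.Rt 𝒰 t a) (R : ℝ) :
    ∀ᶠ s in atBot, ∀ᶠ n in 𝒰, a n + s ∈ A.Gap o.t (Fin.last _) R n := (h R).mono fun s hs =>
  (hs.and (eventually_all.2 fun i => (h' _ (o.deep i)).eventually_ge_atTop (R - s))).mono
    fun _ h => ⟨h.1, fun i => ⟨fun _ => by linarith [h.2 i],
      fun e => absurd e (not_le.2 (Fin.castSucc_lt_last i))⟩⟩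

theorem gap_top {R : ℝ} {n : ν} (h : A.J R n ∈ atTop) : A.Gap o.t (Fin.last _) R n ∈ atTop :=
  (Eventually.and h (eventually_all.2 fun i => eventually_ge_atTop (o.t i n + R))).mono fun _ h =>
    ⟨h.1, fun i => ⟨fun _ => h.2 i, fun e => absurd e (not_le.2 (Fin.castSucc_lt_last i))⟩⟩

theorem gap_bot {R : ℝ} {n : ν} (h : A.J R n ∈ atBot) : A.Gap o.t 0 R n ∈ atBot :=
  (Eventually.and h (eventually_all.2 fun i => eventually_le_atBot (o.t i n - R))).mono fun _ h =>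
    ⟨h.1, fun i => ⟨fun e => absurd e (Fin.not_lt_zero _), fun _ => by linarith [h.2 i]⟩⟩

variable (H : NI N D q 𝒰 A c)
include H

theorem adm (i : Fin o.k) (L : ℝ) :
    ∀ᶠ n in 𝒰, AdmOn (sh (o.t i n) (c n)) D.B D.G (cw Y 0 L) := H.adm_sh tendsto_id (o.deep i) L

theorem exP (g : Fin (o.k + 1)) : ∃ ζ, o.P g (o.b g) ζ := by
  have hβ := crit_adm (o.crit g)
  obtain ⟨ζ, h⟩ := Brk64.exists_clu (Q := fun (m : ℕ) (ξ : Circle) => ∃ R, ∀ᶠ n in 𝒰,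
      ∀ s ∈ A.Gap o.t g R n, ∃ w, Cn D (c n) (o.b g) w ξ (win Y s 7) (1 / ((m : ℝ) + 1)))
    fun m => by
      obtain ⟨η1, p1, H1⟩ := phase_eta hβ (Nat.one_div_pos_of_nat (n := m))
      obtain ⟨η2, p2, H2⟩ := H.phase (o.crit g) p1
      obtain ⟨R, -, H3⟩ := o.near η2 p2
      obtain ⟨ζ, H4⟩ := ev_choice ((H2.and H3).mono fun n h =>
        h.1 _ (A.gap_cl o.t g R n) (A.gap_oc o.t g R n) (h.2 g))
      obtain ⟨ξ, -, hξ⟩ := isCompact_univ.ultrafilter_le_nhds (𝒰.map ζ) (by simp)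
      refine ⟨ξ, R + 7, ?_⟩
      filter_upwards [H4, hξ (Metric.closedBall_mem_nhds ξ p1)] with n a1 a2 s hs
      exact (a1 s fun x hx => A.gap_lip hs (abs_le.2 ⟨by linarith [hx.1], by linarith [hx.2]⟩)).imp
        fun w hw => H1 _ _ _ w _ _ (Metric.mem_closedBall'.1 a2) hw
  refine ⟨ζ, o.crit g, fun η hη => ?_⟩
  obtain ⟨η1, p1, H1⟩ := phase_eta hβ hη
  obtain ⟨m0, h0⟩ := exists_nat_one_div_lt p1
  obtain ⟨m, h1, ξ, ⟨R, h2⟩, h3⟩ := h η1 p1 m0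
  exact ⟨R, h2.mono fun n hn s hs => (hn s hs).imp fun w hw => H1 _ _ _ w _ _ h3 (hw.mono
    (win_op _ _) Subset.rfl Nat.one_div_pos_of_nat ((Nat.one_div_le_one_div h1).trans h0.le))⟩

theorem P_adm {g : Fin (o.k + 1)} (h : o.P g β ζ) {η : ℝ} (hη : 0 < η) :
    ∃ R, ∀ᶠ n in 𝒰, ∀ s ∈ A.Gap o.t g R n, AdmOn (c n) D.B D.G (win Y s 7) ∧
      ∃ w, Cn D (c n) β w ζ (win Y s 7) η :=
  let ⟨R, hR⟩ := h.2 η hη
  ⟨max R (0 + 7), (hR.and H.adm).mono fun n h s hs => ⟨(adm_cw h.2 (A.anti (le_max_right _ _) n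
    hs.1)).mono (win_cw _ _), h.1 s (A.gap_anti _ _ (le_max_left _ _) n hs)⟩⟩

/-- the gaps define classes -/
theorem cs (g : Fin (o.k + 1)) : Cs N D (o.P g) := by
  refine ⟨⟨_, o.exP H g⟩, fun h => h.1, fun {β ζ β' ζ'} h h' => stb_of_eta (crit_adm h.1)
    (crit_adm h'.1) (L := 7) (by norm_num) fun η hη => ?_, fun h h1 h2 =>
      ⟨h1, h.2.act (crit_adm h.1) (crit_adm h1) h2⟩⟩
  obtain ⟨R, hR⟩ := o.P_adm H h hη
  obtain ⟨R', hR'⟩ := h'.2 η hη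
  obtain ⟨n, ⟨a1, a2⟩, s, hs⟩ := ((hR.and hR').and
    (gap_ne o.cen.choose_spec H.ne g (max R R'))).exists
  obtain ⟨a3, w, a4⟩ := a1 s (A.gap_anti _ _ (le_max_left _ _) n hs)
  obtain ⟨w', a5⟩ := a2 s (A.gap_anti _ _ (le_max_right _ _) n hs)
  exact ⟨_, c n, s, w, w', ζ, ζ', a3, a4, a5, by simpa using hη.le, by simpa using hη.le⟩

/-- the windows in a gap are close to every member of its class -/
theorem near_P {g : Fin (o.k + 1)} (h : o.P g β ζ) {η : ℝ} (hη : 0 < η) :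
    ∃ R, ∀ᶠ n in 𝒰, ∀ s ∈ A.Gap o.t g R n, Nr D (c n) (A.J 0 n) s β η := by
  obtain ⟨ξ, h1⟩ := o.exP H g
  obtain ⟨w, h2⟩ := (o.cs H g).stb h1 h
  obtain ⟨η', h3, h4⟩ := nr_act (crit_adm h1.1) (crit_adm h.1) h2 hη
  obtain ⟨R, -, h5⟩ := o.near η' h3
  exact ⟨R, h5.mono fun n h s hs => h4 _ _ _ _ (h g s hs)⟩

/-- **a limit seen from a point `a` converges along its end which runs into the gap `g`** -/
theorem lim_gap {g : Fin (o.k + 1)} (h : o.P g β ζ) {l : Filter ℝ} (hl : IsEnd l)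
    {a : ν → ℝ} (ha : ∀ R, ∀ᶠ s in l, ∀ᶠ n in 𝒰, a n + s ∈ A.Gap o.t g R n)
    {γ : Cfg (Y × ℝ) (Option κ) lam r} {v : ∀ n, Y × ℝ → CL (c n).m.V γ.m.V} {T : Set ℝ}
    (hT : T ∈ l) (hγ : AdmOn γ D.B D.G (univ ×ˢ T))
    (hv : CvC D.Z 𝒰 (fun n => sh (a n) (c n)) γ v (univ ×ˢ T)) :
    ∃ u, ∀ k, ∀ η > 0, ∃ T' ∈ l, T' ⊆ T ∧ D.Cls γ β u ζ T' k η :=
  lim_of_cv H.ok (crit_adm h.1) hl hT hγ hv fun η hη => by
    obtain ⟨R, hR⟩ := o.P_adm H h hη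
    refine (ha R).mono fun s hs => (hs.and hR).mono fun n hn => ?_
    obtain ⟨h1, w, h2⟩ := hn.2 _ hn.1
    have h3 := admOn_sh h1 (a n)
    have h4 := Cl.sh h2 (a n)
    rw [win_tr (add_comm _ _)] at h3 h4
    exact ⟨h3, _, h4⟩

/-- **solutions which converge along an end in the gap `g`** -/
theorem end_gap {g : Fin (o.k + 1)} {l : Filter ℝ} [l.NeBot] (hl : IsEnd l)
    (hg : ∀ R, ∀ᶠ n in 𝒰, A.Gap o.t g R n ∈ l) {b : ν → YC Y κ lam} {z : ν → Circle}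
    (h : ∀ᶠ n in 𝒰, D.Adm (b n) ∧ ∃ T, AdmOn (c n) D.B D.G (univ ×ˢ T) ∧
      ∃ u, ∀ k, ∀ η > 0, ∃ T' ∈ l, T' ⊆ T ∧ D.Cls (c n) (b n) u (z n) T' k η) :
    o.P g = Lc N D 𝒰 b z := by
  obtain ⟨ξ, hξ⟩ := o.exP H g
  have key : Lc N D 𝒰 b z (o.b g) ξ := ⟨hξ.1, fun η hη => by
    obtain ⟨R, hR⟩ := hξ.2 _ (half_pos hη)
    filter_upwards [hR, hg R, h] with n a1 a2 ⟨a3, T, a4, u, a5⟩
    exact cn_end (crit_adm hξ.1) a3 hl a4 a5 hη (mem_of_superset a2 a1)⟩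
  exact (o.cs H g).ext (key.cs (h.mono fun _ h => h.1)) hξ key

/-- decay of the densities in the gaps -/
theorem decay : ∃ d > 0, ∃ C > 0, ∃ R ≥ 0, ∀ᶠ n in 𝒰, ∀ g a b, a ≤ b → Icc a b ⊆ A.Gap o.t g R n →
    ∀ x : Y × ℝ, x.2 ∈ Icc a b → eZ D (c n) x ≤ C * Real.exp (-d * min (x.2 - a) (b - x.2)) ∧
      |kZ D (c n) x| ≤ C * Real.exp (-d * min (x.2 - a) (b - x.2)) := by
  choose d d0 C C0 h1 using fun g => H.dec _ (o.crit g)
  choose η η0 h2 using fun g => h1 g 0 1 one_pos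
  obtain ⟨d', p1, e1⟩ := exists_pos_le d0
  obtain ⟨η', p2, e2⟩ := exists_pos_le η0
  obtain ⟨C', ⟨e3, p3⟩⟩ := ((eventually_all.2 fun i => eventually_ge_atTop (C i)).and
    (eventually_gt_atTop 0)).exists
  obtain ⟨R, p4, h3⟩ := o.near η' p2
  refine ⟨d', p1, C', p3, R, p4, ?_⟩
  filter_upwards [eventually_all.2 h2, h3] with n a1 a2 g a b hab h x hx
  have h6 := (a1 g a b hab fun s hs => (a2 g s (h hs)).mono p2 (e2 g)).den x hx
  have h5 : 0 ≤ min (x.2 - a) (b - x.2) := le_min (sub_nonneg.2 hx.1) (sub_nonneg.2 hx.2)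
  have h7 : C g * Real.exp (-d g * min (x.2 - a) (b - x.2)) ≤
      C' * Real.exp (-d' * min (x.2 - a) (b - x.2)) :=
    mul_le_mul (e3 g) (Real.exp_le_exp.2 (by nlinarith [e1 g])) (Real.exp_pos _).le p3.le
  exact ⟨h6.1.trans h7, h6.2.trans h7⟩

theorem gap_decay : ∃ d > 0, ∃ C > 0, ∃ R ≥ 0, (∀ᶠ n in 𝒰, ∀ g a b, a ≤ b →
    Icc a b ⊆ A.Gap o.t g R n → ∀ x : Y × ℝ, x.2 ∈ Icc a b →
      |kZ D (c n) x| ≤ C * Real.exp (-d * min (x.2 - a) (b - x.2))) ∧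
    ∀ i a b, a ≤ b → (R ≤ a ∨ b ≤ -R) → ∀ᶠ n in 𝒰, ∀ x : Y × ℝ, x.2 ∈ Icc a b →
      eZ D (sh (o.t i n) (c n)) x ≤ C ∧
        |kZ D (sh (o.t i n) (c n)) x| ≤ C * Real.exp (-d * min (x.2 - a) (b - x.2)) := by
  obtain ⟨d, p1, C, p2, R, p4, h3⟩ := o.decay H
  refine ⟨d, p1, C, p2, R, p4, h3.mono fun n h g a b hab e x hx => (h g a b hab e x hx).2,
    fun i a b hab h => ?_⟩
  have h4 : ∀ᶠ n in 𝒰, ∃ g, Icc (o.t i n + a) (o.t i n + b) ⊆ A.Gap o.t g R n := by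
    obtain ⟨w, hw⟩ := o.cen
    rcases h with h | h
    · exact ((hw.mem_right i h).and (hw.mem_right i (h.trans hab))).mono fun n h =>
        ⟨_, (A.gap_oc _ _ _ _).out h.1 h.2⟩
    · exact ((hw.mem_left i (show R ≤ -a by linarith)).and (hw.mem_left i
        (show R ≤ -b by linarith))).mono fun n h =>
        ⟨_, by simpa using (A.gap_oc _ _ _ _).out h.1 h.2⟩
  filter_upwards [h3, h4, H.adm] with n a1 ⟨g, a2⟩ a3 x hx
  have a4 : x.2 + o.t i n ∈ Icc (o.t i n + a) (o.t i n + b) :=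
    ⟨by linarith [hx.1], by linarith [hx.2]⟩
  have a5 := ek_sh (s := o.t i n) (x := x) a3 ⟨trivial, A.anti p4 n (a2 a4).1⟩
  have a6 := a1 g _ _ (by linarith) a2 (Tmp64.sq (· + o.t i n) x) a4
  simp only [Tmp64.sq, show x.2 + o.t i n - (o.t i n + a) = x.2 - a by ring,
    show o.t i n + b - (x.2 + o.t i n) = b - x.2 by ring] at a5 a6
  rw [a5.1, a5.2]
  refine ⟨a6.1.trans (mul_le_of_le_one_right p2.le (Real.exp_le_one_iff.2 ?_)), a6.2⟩
  nlinarith [le_min (sub_nonneg.2 hx.1) (sub_nonneg.2 hx.2)]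

/-- the bubbles stay in a bounded region -/
theorem sg (i : Fin o.k) : ∀ᶠ R in atTop, o.Sg i ⊆ win Y 0 R := by
  obtain ⟨d, -, C, p2, R, -, -, h⟩ := o.gap_decay H
  refine (eventually_ge_atTop (R + 1)).mono fun R' hR p hp => by_contra fun e => ?_
  obtain ⟨ε, h0, h1⟩ := (o.lm i).conc p hp
  obtain ⟨ρ, h2, h3, h4⟩ := exists_small h0 (C * (D.F.μ.real univ * 2))
  obtain ⟨n, a1, a2⟩ := ((h1 _ (cw_nhds p h2) (cwin_cpt _ _)).and (h i (p.2 - 1) (p.2 + 1)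
    (by linarith) (by
      by_contra e'
      push Not at e'
      exact e ⟨trivial, by linarith [e'.2], by linarith [e'.1]⟩))).exists
  have := int_le (D := D) h2.le p2.le Subset.rfl fun x hx => (abs_of_nonneg (Dgr80.en_nonneg _ _ _
    _)).trans_le (a2 x ⟨by linarith [hx.2.1], by linarith [hx.2.2]⟩).1
  linarith

theorem m_spec (i : Fin o.k) : o.IsM i (o.m i) :=
  let ⟨R, hR⟩ := (o.sg H i).exists
  Classical.epsilon_spec (((o.lm i).loss R hR).imp fun _ h =>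
    ⟨h.1, (eventually_ge_atTop R).mono h.2⟩)

/-- **the limits are trajectories** -/
theorem traj (i : Fin o.k) (h : o.P i.castSucc β ζ) (h' : o.P i.succ β' ζ') :
    N.Traj D q (o.γ i) β β' ζ ζ' := by
  obtain ⟨R, hR⟩ := (o.sg H i).exists
  have key : ∀ {g β ζ l}, o.P g β ζ → IsEnd l → (∀ R, ∀ᶠ s in l, ∀ᶠ n in 𝒰,
      o.t i n + s ∈ A.Gap o.t g R n) → D.nk.Lim (o.γ i) β ζ l := fun h hl ha =>
    (o.lim_gap H h hl ha (hl.far.eventually_ge_atTop R)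
      ((admOn_univ.2 (o.lm i).sol.toAdm).mono (subset_univ _)) ((o.lm i).cv.mono le_rfl
        fun x hx e => absurd hx.2 (not_le.2 (abs_lt.2 (by simpa using (hR e).2))))).imp
      fun _ h k η hη => (h k η hη).imp fun _ h => ⟨h.1, fun _ _ => by simp [YD.nk, Jv], h.2.2⟩
  exact ⟨(o.lm i).sol, key h isEnd_bot (o.ev_left i), key h' isEnd_top (o.ev_right i)⟩

/-- every centre carries a moving trajectory or a bubble -/
theorem mv (i : Fin o.k) : D.Moves (o.γ i) ∨ o.m i ≠ 0 := by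
  by_contra e
  simp only [not_or, YD.Moves, not_exists, not_not] at e
  obtain ⟨ε, h0, L, h1⟩ := o.car i
  obtain ⟨δ, h2, -, h3⟩ := exists_small h0 (D.F.μ.real univ * (2 * |L|))
  obtain ⟨n, ⟨a1, a2⟩, a3, a4⟩ := ((h1.and ((o.lm i).ek H.ok (o.adm H i) (cwin_cpt 0 |L|)
    (by simp [(o.m_spec H i).1.1 e.2]) h2)).and (H.adm.and (o.deep i (0 + L)))).exists
  have a5 := (ek_int_sh (win_op _ _).measurableSet ((adm_cw a3 a4).mono (win_cw _ _)) (o.t i n)).1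
  rw [win_tr (zero_add _).symm] at a5
  have a6 : win Y 0 L ⊆ cw Y 0 |L| := (win_sub (by simpa using le_abs_self L)).trans (win_cw _ _)
  have := int_le (D := D) (abs_nonneg L) h2.le a6 fun x hx => by
    simpa only [eZ, e.1 x, sub_zero] using (a2 x (a6 hx)).1
  linarith

/-- a centre without a moving trajectory does not change the class -/
theorem still {i : Fin o.k} (h : ¬D.Moves (o.γ i)) :
    o.P i.castSucc = o.P i.succ ∧ (o.γ i).kap D.B D.G = 0 := by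
  simp only [YD.Moves, not_exists, not_not] at h
  obtain ⟨β, u, h1, h2⟩ := H.frz _ (o.lm i).sol h
  have a0 := crit_adm h1
  have ag := admOn_univ.2 (o.lm i).sol.toAdm
  have k1 : ∀ {β' ζ l} [NeBot l], D.Adm β' → IsEnd l → D.nk.Lim (o.γ i) β' ζ l →
      ∃ w, Stb D β β' w (ζ / 1) := fun {β' ζ l} _ a1 hl ⟨w, hw⟩ =>
    stb_of_eta a0 a1 one_pos fun η hη =>
      let ⟨s, hs⟩ := (cn_of_lim a1 hl (ag.mono (subset_univ _)) hw hη 1).exists
      ⟨_, o.γ i, s, u, w, 1, ζ, ag.mono (subset_univ _), cl_of_eq0 h2 (win_op _ _) hη.le, hs,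
        by simpa using hη.le, by simpa using hη.le⟩
  obtain ⟨ζ, hζ⟩ := o.exP H i.castSucc
  obtain ⟨ζ', hζ'⟩ := o.exP H i.succ
  obtain ⟨w, hw⟩ := k1 (crit_adm hζ.1) isEnd_bot (o.traj H i hζ hζ').bot
  obtain ⟨w', hw'⟩ := k1 (crit_adm hζ'.1) isEnd_top (o.traj H i hζ hζ').top
  obtain ⟨g, hg⟩ := stb_div a0 (crit_adm hζ.1) (crit_adm hζ'.1) hw hw'
  refine ⟨(o.cs H _).ext (o.cs H _) (by simpa using (o.cs H _).act hζ hζ'.1 hg) hζ', ?_⟩
  exact integral_eq_zero_of_ae (Eventually.of_forall fun x =>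
    kd_zero H.ok (o.lm i).sol.toAdm (h x))

open Classical in
/-- one centre -/
theorem ch_one (i : Fin o.k) : Ch N D q (o.P i.castSucc) (o.P i.succ)
    ((o.γ i).kap D.B D.G + o.m i) (o.m i + if D.Moves (o.γ i) then 1 else 0) := by
  split_ifs with hm
  · exact .inl fun β ζ β' ζ' h h' => .mov _ (o.traj H i h h') hm h'.1 (brk_bubs _ _ _)
  · rw [(o.still H hm).1, (o.still H hm).2, zero_add, add_zero]
    exact Ch.bubs _ _

/-- **the chain** -/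
theorem ch : Ch N D q (o.P 0) (o.P (Fin.last _)) o.lev o.len :=
  chain_ind (Q := fun g x j => Ch N D q (o.P g) (o.P (Fin.last _)) x j) (Ch.nil _)
    fun i _ _ h => (o.ch_one H i).trans h (o.cs H _).ne

theorem k_le : o.k ≤ o.len := by
  refine le_trans (by simp) (Finset.card_nsmul_le_sum Finset.univ _ 1 fun i _ => ?_)
  rcases o.mv H i with h | h
  · rw [if_pos h]; omega
  · omega

theorem int_kd (i : Fin o.k) : Integrable (kZ D (o.γ i)) D.Z.μ := by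
  obtain ⟨d, p1, C, p2, R, p3, -, h⟩ := o.gap_decay H
  obtain ⟨R', h1, h2⟩ := ((o.sg H i).and (eventually_ge_atTop R)).exists
  have ag := admOn_univ.2 (o.lm i).sol.toAdm
  have hc : Continuous (kZ D (o.γ i)) := continuous_iff_continuousAt.2 fun x =>
    (fsm_kd H.ok.B isOpen_univ ag trivial).continuousAt
  have key : ∀ T : Set ℝ, IsClosed T → T.OrdConnected → (T ⊆ Ici R' ∨ T ⊆ Iic (-R')) →
      IntegrableOn (kZ D (o.γ i)) (Prod.snd ⁻¹' T) D.Z.μ := fun T t1 t2 t3 =>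
    ⟨hc.aestronglyMeasurable, (lint_dec p1 p2.le t1 t2 fun a b hab e x hx => by
      refine le_of_forall_pos_le_add fun ε hε => ?_
      obtain ⟨n, a1, a2⟩ := ((h i a b hab (t3.imp (fun e' => h2.trans (e' (e ⟨le_rfl, hab⟩)))
        fun e' => (e' (e ⟨hab, le_rfl⟩)).trans (neg_le_neg h2))).and ((o.lm i).ek H.ok (o.adm H i)
          (isCompact_singleton (x := x)) (singleton_subset_iff.2 fun e' => t3.elim
            (fun e'' => absurd (e'' (e hx)) (not_le.2 (by simpa using (h1 e').2.2)))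
            fun e'' => absurd (e'' (e hx)) (not_le.2 (by simpa using (h1 e').2.1))) hε)).exists
      linarith [(a1 x hx).2, (a2 x rfl).2, abs_sub_abs_le_abs_sub (kZ D (o.γ i) x)
        (kZ D (sh (o.t i n) (c n)) x), abs_sub_comm (kZ D (o.γ i) x)
        (kZ D (sh (o.t i n) (c n)) x)]).trans_lt ENNReal.ofReal_lt_top⟩
  refine integrableOn_univ.1 ((((key _ isClosed_Iic ordConnected_Iic (.inr Subset.rfl)).union
    (key _ isClosed_Ici ordConnected_Ici (.inl Subset.rfl))).union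
    (int_cw H.ok (s := 0) (L := R') (ag.mono (subset_univ _))).2).mono_set fun x _ => ?_)
  by_contra e
  simp only [mem_union, mem_preimage, mem_Iic, mem_Ici, not_or, not_le] at e
  exact e.2 ⟨trivial, by linarith [e.1.1], by linarith [e.1.2]⟩

/-- **the level** -/
theorem level {ε : ℝ} (hε : 0 < ε) : ∀ᶠ R in atTop, ∀ᶠ n in 𝒰,
    IntegrableOn (kZ D (c n)) (univ ×ˢ A.J R n) D.Z.μ ∧
      |∫ x in univ ×ˢ A.J R n, kZ D (c n) x ∂D.Z.μ - o.lev| ≤ ε := by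
  obtain ⟨d, p1, C, p2, R₁, p3, h, -⟩ := o.gap_decay H
  obtain ⟨δ, p4, -, h1⟩ := exists_small hε (o.k + 1 + 2 * o.k)
  have h2 := (tendsto_atTop_add_const_right _ (-R₁) tendsto_id).const_mul_atTop p1 |>.eventually
    (Brk64.ev_exp p4 (C * (D.F.μ.real univ * (2 / d))))
  have h3 : ∀ i, ∀ᶠ R in atTop,
      |∫ x in cw Y 0 R, kZ D (o.γ i) x ∂D.Z.μ - (o.γ i).kap D.B D.G| < δ := fun i =>
    Metric.tendsto_nhds.1 (AECover.integral_tendsto_of_countably_generated (φ := cw Y 0)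
      ⟨Eventually.of_forall fun x => (eventually_ge_atTop |x.2|).mono fun R h => ⟨trivial,
        by linarith [neg_abs_le x.2], by linarith [le_abs_self x.2]⟩,
        fun R => (cwin_cpt 0 R).measurableSet⟩ (o.int_kd H i)) δ p4
  filter_upwards [h2, eventually_all.2 h3, eventually_all.2 fun i => (o.m_spec H i).2,
    eventually_ge_atTop (R₁ + 1)] with R a1 a2 a3 a4
  filter_upwards [h, H.adm, eventually_all.2 fun i => Metric.tendsto_nhds.1 (a3 i) δ p4,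
    eventually_all.2 fun i => o.deep i (R + R), eventually_all.2 fun i => o.deep i (0 + (R + 1)),
    eventually_all.2 fun i => eventually_all.2 fun j => eventually_imp_distrib_left.2
      fun e : i < j => (o.sep e).eventually_gt_atTop (R + R)] with n b1 b2 b3 b4 b5 b6
  have c1 : ∀ x : Y × ℝ, x.2 ∈ A.J R n → ContinuousAt (kZ D (c n)) x := fun x hx =>
    (fsm_kd H.ok.B (win_op x.2 1) ((adm_cw b2 (A.anti (by linarith) n hx)).mono (win_cw _ _))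
      ⟨trivial, by linarith, by linarith⟩).continuousAt
  obtain ⟨c2, c3⟩ := A.int_split (μ := D.Z.μ) (g := kZ D (c n)) (t := o.t) (R := R) (n := n)
    measurable_snd (by linarith) p4.le (fun i j e => by linarith [b6 i j e]) b4
    (ContinuousOn.aestronglyMeasurable (fun x hx => (c1 x hx).continuousWithinAt)
      (measurable_snd (A.cl R n).measurableSet))
    (fun i => by rw [snd_pre]; exact (int_cw H.ok (adm_cw b2 (b5 i))).2) fun g => by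
      refine (lint_dec (C := C * Real.exp (-d * (R - R₁))) p1 (by positivity) (A.gap_cl _ _ _ _)
        (A.gap_oc _ _ _ _) fun a b hab e x hx => ?_).trans (ENNReal.ofReal_le_ofReal ?_)
      · have e1 : ∀ s ∈ Icc a b, s ∈ A.Gap o.t g (R₁ + (R - R₁)) n := fun s hs => by
          simpa using e hs
        refine (b1 g (a - (R - R₁)) (b + (R - R₁)) (by linarith) ((A.gap_oc _ _ _ _).out
          (A.gap_lip (e1 a ⟨le_rfl, hab⟩) (by rw [sub_sub_cancel_left, abs_neg, abs_of_nonneg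
            (by linarith)])) (A.gap_lip (e1 b ⟨hab, le_rfl⟩) (by
              rw [add_sub_cancel_left, abs_of_nonneg (by linarith)]))) x
          ⟨by linarith [hx.1], by linarith [hx.2]⟩).trans (le_of_eq ?_)
        rw [mul_assoc, ← Real.exp_add, ← mul_add, ← min_add_add_left]
        congr 4 <;> ring
      · simp only [id, ← sub_eq_add_neg, ← neg_mul] at a1
        linarith
  rw [snd_pre] at c2
  refine ⟨c2, ?_⟩
  have c4 : |∑ i, eI D.Z.μ Prod.snd (kZ D (c n)) (Icc (o.t i n - R) (o.t i n + R)) - o.lev| ≤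
      o.k * (2 * δ) := by
    rw [lev, ← Finset.sum_sub_distrib]
    refine (Finset.abs_sum_le_sum_abs _ _).trans ((Finset.sum_le_card_nsmul _ _ (2 * δ)
      fun i _ => ?_).trans (by simp))
    have := (ek_int_sh (cwin_cpt _ _).measurableSet (adm_cw (L := R) b2
      (A.anti (by linarith) n (b5 i))) (o.t i n)).2
    rw [cw_tr (zero_add _).symm] at this
    have d1 := abs_lt.1 (a2 i)
    have d2 := abs_lt.1 (b3 i)
    rw [eI, snd_pre, ← this, abs_le]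
    constructor <;> linarith
  rw [eI, snd_pre] at c3
  linarith [abs_sub_le (∫ x in univ ×ˢ A.J R n, kZ D (c n) x ∂D.Z.μ)
    (∑ i, eI D.Z.μ Prod.snd (kZ D (c n)) (Icc (o.t i n - R) (o.t i n + R))) o.lev]

end NO

end Crest.Agent.X212.Nck90
end
end

-- ▼ part X212/Nck90/Chn

/-!
# X212, necks (helper90), part 6: compactness of broken trajectories
-/

set_option autoImplicit false
set_option linter.unusedSectionVars false
noncomputable section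
open scoped Manifold ContDiff Topology InnerProductSpace
open MeasureTheory Set Function Filter

namespace Crest.Agent.X212.Nck90
open An Sob92 Cyf70 Neck67 Cmp73 Pj41 Eqv71 Tmp64 Nd18 Std94 Bki64

theorem nat_ult {ν : Type*} (𝒰 : Ultrafilter ν) (j : ν → ℕ) :
    (∃ j₀, ∀ᶠ n in 𝒰, j n = j₀) ∨ Tendsto j 𝒰 atTop := by
  refine or_iff_not_imp_left.2 fun h => tendsto_atTop.2 fun m => ?_
  exact ((eventually_all_finset (Finset.range m)).2 fun i _ =>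
    Ultrafilter.eventually_not.2 fun e => h ⟨i, e⟩).mono fun n hn =>
      not_lt.1 fun e => hn _ (Finset.mem_range.2 e) rfl

variable {E3 : Type} [NormedAddCommGroup E3] [NormedSpace ℝ E3] [FiniteDimensional ℝ E3]
  [MeasurableSpace E3] [BorelSpace E3]
  {H3 : Type} [TopologicalSpace H3] {I3 : ModelWithCorners ℝ E3 H3} [I3.Boundaryless]
  {Y : Type} [TopologicalSpace Y] [ChartedSpace H3 Y] [IsManifold I3 ∞ Y] [T2Space Y]
  [MeasurableSpace Y] [BorelSpace Y] [SecondCountableTopology Y] [CompactSpace Y]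
  {κ : Type} [Fintype κ] {lam : Type} [Fintype lam] {D : YD I3 Y κ lam} {β β' β'' : YC Y κ lam}
  {ζ ζ' ζ'' : Circle} {N : ND Y lam} {q : YW I3 Y →₀ ℝ} {r : ℕ} {ν : Type} {𝒰 : Ultrafilter ν}

/-- the energy of trajectories -/
def Pos (N : ND Y lam) (D : YD I3 Y κ lam) (q : YW I3 Y →₀ ℝ) : Prop :=
  ∀ c β β' ζ ζ', N.Crit D β → N.Crit D β' → N.Traj D q c β β' ζ ζ' → Integrable (eZ D c) D.Z.μ ∧
    ∫ x, eZ D c x ∂D.Z.μ ≤ 16 * Real.pi ^ 2 * N.tE D c β β' ∧ (D.Moves c → 0 < N.tE D c β β')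

/-- the functional is locally constant on the critical set -/
def LvC (N : ND Y lam) (D : YD I3 Y κ lam) : Prop :=
  ∀ β, N.Crit D β → ∃ η > 0, ∀ β' g ζ, N.Crit D β' → Cn D (cy β') β g ζ (win Y 0 7) η →
    N.lv D β' = N.lv D β

/-- the energy of a chain of level `x` -/
def cE (N : ND Y lam) (D : YD I3 Y κ lam) (β β' : YC Y κ lam) (x : ℝ) : ℝ :=
  x + (N.lv D β - N.lv D β') / (8 * Real.pi ^ 2)

theorem cE_add (x y : ℝ) : cE N D β β'' (x + y) = cE N D β β' x + cE N D β' β'' y := by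
  simp only [cE]; ring

theorem cE_self (x : ℝ) : cE N D β β x = x := by simp [cE]

theorem LvC.lc (h : LvC N D) {l : Filter ν} {b : ν → YC Y κ lam} {z : ν → Circle}
    (hb : ∀ᶠ n in l, N.Crit D (b n)) (h' : Lc N D l b z β ζ) :
    ∀ᶠ n in l, N.lv D (b n) = N.lv D β :=
  let ⟨η, h0, h1⟩ := h β h'.1
  (hb.and (h'.2 η h0)).mono fun _ ⟨a, g, b⟩ => h1 _ g _ a b

theorem LvC.cs (h : LvC N D) {𝒜 : Pc Y κ lam} (hc : Cs N D 𝒜) (a : 𝒜 β ζ) (a' : 𝒜 β' ζ') :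
    N.lv D β = N.lv D β' :=
  let ⟨η, h0, h1⟩ := h β' (hc.crit a')
  let ⟨_, hg⟩ := hc.stb a a'
  h1 _ _ _ (hc.crit a) (hg.cl (win_op _ _) h0.le)

section one
variable {x : ℝ} {j : ℕ}

theorem brk_zero (h : N.Brk D q β ζ β' ζ' x 0) : β = β' ∧ ζ = ζ' ∧ x = 0 := by
  generalize e : 0 = j at h
  cases h with
  | nil => exact ⟨rfl, rfl, rfl⟩
  | bub => omega
  | mov => omega

theorem brk_succ (h : N.Brk D q β ζ β'' ζ'' x (j + 1)) :
    (∃ y, x = y + 1 ∧ N.Brk D q β ζ β'' ζ'' y j) ∨ ∃ c β' ζ' y, N.Traj D q c β β' ζ ζ' ∧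
      D.Moves c ∧ N.Crit D β' ∧ N.Brk D q β' ζ' β'' ζ'' y j ∧ x = c.kap D.B D.G + y := by
  generalize e : j + 1 = i at h
  cases h with
  | nil => omega
  | bub h => obtain rfl := Nat.succ.inj e; exact .inl ⟨_, rfl, h⟩
  | mov c h1 h2 h3 h => obtain rfl := Nat.succ.inj e; exact .inr ⟨c, _, _, _, h1, h2, h3, h, rfl⟩

/-- every step costs energy -/
theorem brk_min (h : N.Brk D q β ζ β' ζ' x j) (hβ : N.Crit D β) {ε : ℝ} (h1 : ε ≤ 1)
    (h2 : ∀ c β β' ζ ζ', N.Crit D β → N.Crit D β' → N.Traj D q c β β' ζ ζ' → D.Moves c →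
      ε ≤ N.tE D c β β') : ε * j ≤ cE N D β β' x := by
  induction h with
  | nil => simp [cE]
  | bub _ ih => have := ih hβ; simp only [cE] at this ⊢; push_cast; linarith
  | mov c a1 a2 a3 _ ih =>
    rw [cE_add, Nat.cast_succ, mul_add, mul_one, add_comm]
    exact add_le_add (h2 c _ _ _ _ hβ a3 a1 a2) (ih a3)

theorem brk_nn (hp : Pos N D q) (h : N.Brk D q β ζ β' ζ' x j) (hβ : N.Crit D β) :
    0 ≤ cE N D β β' x := by
  simpa using brk_min h hβ zero_le_one fun c _ _ _ _ a1 a2 a3 a4 =>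
    ((hp c _ _ _ _ a1 a2 a3).2.2 a4).le

theorem brk_pos (hp : Pos N D q) (h : N.Brk D q β ζ β' ζ' x j) (hβ : N.Crit D β) (hj : j ≠ 0) :
    0 < cE N D β β' x := by
  obtain ⟨j, rfl⟩ := Nat.exists_eq_succ_of_ne_zero hj
  rcases brk_succ h with ⟨y, rfl, h'⟩ | ⟨c, β₁, ζ₁, y, a1, a2, a3, h', rfl⟩
  · have := brk_nn hp h' hβ
    simp only [cE] at this ⊢; linarith
  · rw [cE_add (β' := β₁)]
    exact add_pos_of_pos_of_nonneg ((hp c _ _ _ _ hβ a3 a1).2.2 a2) (brk_nn hp h' a3)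

/-- the energy of a chain between classes -/
theorem Ch.en {𝒜 𝒜' : Pc Y κ lam} (h : Ch N D q 𝒜 𝒜' x j) (hp : Pos N D q) (hl : LvC N D)
    (hc : Cs N D 𝒜) (a : 𝒜 β ζ) (a' : 𝒜' β' ζ') :
    0 ≤ cE N D β β' x ∧ (j ≠ 0 → 0 < cE N D β β' x) ∧ (j = 0 → 𝒜 = 𝒜' ∨ β = β') ∧
      (j = 0 → x = 0) := by
  rcases h with h | ⟨rfl, h⟩
  · exact ⟨brk_nn hp (h _ _ _ _ a a') (hc.crit a), brk_pos hp (h _ _ _ _ a a') (hc.crit a),
      by rintro rfl; exact .inr (brk_zero (h _ _ _ _ a a')).1,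
      by rintro rfl; exact (brk_zero (h _ _ _ _ a a')).2.2⟩
  · have e : cE N D β β' x = cE N D β β x := by rw [cE, cE, ← hl.cs hc a a']
    rw [e]
    exact ⟨brk_nn hp (h _ ζ) (hc.crit a), brk_pos hp (h _ ζ) (hc.crit a), fun _ => .inl rfl,
      by rintro rfl; exact (brk_zero (h β ζ)).2.2⟩

end one

/-! ### families of trajectories -/

section line
variable {c : ν → Cfg (Y × ℝ) (Option κ) lam 0}
  (o : NO N D q 𝒰 (Brk64.Nk.line ν) (ρ := fun _ => 0) c)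
  (H : NI N D q 𝒰 (Brk64.Nk.line ν) (ρ := fun _ => 0) c)
include H

theorem NO.k_ne (h : ∀ᶠ n in 𝒰, D.Moves (c n)) : o.k ≠ 0 := fun e => by
  obtain ⟨d, p1, C, p2, R, -, h1⟩ := o.decay H
  obtain ⟨n, ⟨x, a1⟩, a2⟩ := (h.and h1).exists
  have : IsEmpty (Fin o.k) := ⟨fun i => by have := i.2; omega⟩
  refine a1 (le_antisymm (le_of_forall_pos_le_add fun ε hε => ?_) (Dgr80.en_nonneg _ _ _ _))
  obtain ⟨T, a3, a4⟩ := (((tendsto_id.const_mul_atTop p1).eventually (Brk64.ev_exp hε C)).and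
    (eventually_ge_atTop 0)).exists
  have := (a2 0 (x.2 - T) (x.2 + T) (by linarith) (fun s _ => ⟨trivial, fun i => isEmptyElim i⟩) x
    ⟨by linarith, by linarith⟩).1
  rw [sub_sub_cancel, add_sub_cancel_left, min_self, neg_mul, mul_comm] at this
  exact this.trans (by simpa using a3.le)

theorem NO.kap_line : Tendsto (fun n => (c n).kap D.B D.G) 𝒰 (𝓝 o.lev) :=
  Metric.tendsto_nhds.2 fun ε hε => by
    obtain ⟨R, h⟩ := (o.level H (half_pos hε)).exists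
    refine h.mono fun n hn => lt_of_le_of_lt ?_ (half_lt_self hε)
    have := hn.2
    rwa [show (Brk64.Nk.line ν).J R n = univ from rfl, univ_prod_univ, Measure.restrict_univ] at this

theorem NO.ends_line {b b' : ν → YC Y κ lam} {z z' : ν → Circle} {qn : ν → YW I3 Y →₀ ℝ}
    (h : ∀ᶠ n in 𝒰, N.Crit D (b n) ∧ N.Crit D (b' n) ∧
      N.Traj D (qn n) (c n) (b n) (b' n) (z n) (z' n)) :
    o.P 0 = Lc N D 𝒰 b z ∧ o.P (Fin.last _) = Lc N D 𝒰 b' z' :=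
  ⟨o.end_gap H isEnd_bot (fun _ => .of_forall fun _ => o.gap_bot univ_mem) (h.mono fun n h =>
      ⟨crit_adm h.1, _, (admOn_univ.2 h.2.2.sol.toAdm).mono (subset_univ _), h.2.2.bot⟩),
    o.end_gap H isEnd_top (fun _ => .of_forall fun _ => o.gap_top univ_mem) (h.mono fun n h =>
      ⟨crit_adm h.2.1, _, (admOn_univ.2 h.2.2.sol.toAdm).mono (subset_univ _), h.2.2.top⟩)⟩

end line

/-- the inputs for families of trajectories of the perturbations `qn` -/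
structure TI (N : ND Y lam) (D : YD I3 Y κ lam) (q : YW I3 Y →₀ ℝ) (𝒰 : Ultrafilter ν)
    (qn : ν → YW I3 Y →₀ ℝ) : Prop where
  pos : ∀ᶠ n in 𝒰, Pos N D (qn n)
  inn : ∀ (c : ν → Cfg (Y × ℝ) (Option κ) lam 0) (E : ℝ), (∀ᶠ n in 𝒰, ∃ β β' ζ ζ', N.Crit D β ∧
    N.Crit D β' ∧ N.Traj D (qn n) (c n) β β' ζ ζ' ∧ N.tE D (c n) β β' ≤ E) →
      NI N D q 𝒰 (Brk64.Nk.line ν) (ρ := fun _ => 0) c

namespace TI
variable {qn : ν → YW I3 Y →₀ ℝ} (T : TI N D q 𝒰 qn) {b b' : ν → YC Y κ lam} {z z' : ν → Circle}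
  {x : ν → ℝ} {E : ℝ}
include T

/-- **the length of chains of bounded energy is bounded** -/
theorem len_bd {j : ν → ℕ} (h : ∀ᶠ n in 𝒰, N.Crit D (b n) ∧
    N.Brk D (qn n) (b n) (z n) (b' n) (z' n) (x n) (j n) ∧ cE N D (b n) (b' n) (x n) ≤ E) :
    ∃ j₀, ∀ᶠ n in 𝒰, j n = j₀ := by
  refine (nat_ult 𝒰 j).resolve_right fun hj => ?_
  have h1 : Tendsto (fun n => (|E| + 1) / (j n : ℝ)) 𝒰 (𝓝 0) :=
    tendsto_const_nhds.div_atTop (tendsto_natCast_atTop_atTop.comp hj)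
  obtain ⟨c, hc⟩ : ∃ c : ν → Cfg (Y × ℝ) (Option κ) lam 0, ∀ᶠ n in 𝒰, ∃ β β' ζ ζ', N.Crit D β ∧
      N.Crit D β' ∧ N.Traj D (qn n) (c n) β β' ζ ζ' ∧ D.Moves (c n) ∧
        N.tE D (c n) β β' < (|E| + 1) / (j n : ℝ) := by
    have : Nonempty (Cfg (Y × ℝ) (Option κ) lam 0) := ⟨cy (b h.exists.choose)⟩
    refine ev_choice (X := fun _ => Cfg (Y × ℝ) (Option κ) lam 0) (P := fun n c => ∃ β β' ζ ζ',
      N.Crit D β ∧ N.Crit D β' ∧ N.Traj D (qn n) c β β' ζ ζ' ∧ D.Moves c ∧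
        N.tE D c β β' < (|E| + 1) / (j n : ℝ)) ?_
    filter_upwards [h, h1.eventually (ge_mem_nhds one_pos), hj.eventually_gt_atTop 0]
      with n a1 a2 a3
    by_contra e
    push Not at e
    have := brk_min a1.2.1 a1.1 a2 e
    rw [div_mul_cancel₀ _ (Nat.cast_ne_zero.2 a3.ne')] at this
    linarith [a1.2.2, le_abs_self E]
  have H := T.inn c 1 ((hc.and (h1.eventually (ge_mem_nhds one_pos))).mono
    fun n ⟨⟨β, β', ζ, ζ', a⟩, e⟩ => ⟨β, β', ζ, ζ', a.1, a.2.1, a.2.2.1, a.2.2.2.2.le.trans e⟩)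
  obtain ⟨o⟩ := H.out
  obtain ⟨ε, p, L, h2⟩ := o.car ⟨0, Nat.pos_of_ne_zero (o.k_ne H (hc.mono
    fun n ⟨_, _, _, _, a⟩ => a.2.2.2.1))⟩
  have h3 := h1.const_mul (16 * Real.pi ^ 2)
  rw [mul_zero] at h3
  obtain ⟨n, ⟨a1, a2⟩, ⟨β, β', ζ, ζ', a3⟩, a4⟩ := ((h2.and (h3.eventually (gt_mem_nhds p))).and
    (hc.and T.pos)).exists
  obtain ⟨a5, a6, -⟩ := a4 _ _ _ _ _ a3.1 a3.2.1 a3.2.2.1
  linarith [setIntegral_le_integral (s := win Y (o.t ⟨0, Nat.pos_of_ne_zero (o.k_ne H (hc.mono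
    fun n ⟨_, _, _, _, a⟩ => a.2.2.2.1))⟩ n) L) a5 (.of_forall (Dgr80.en_nonneg _ _ _)),
    mul_le_mul_of_nonneg_left a3.2.2.2.2.le (by positivity : 0 ≤ 16 * Real.pi ^ 2)]

theorem lim_aux (j : ℕ) : ∀ {b : ν → YC Y κ lam} {z : ν → Circle} {x : ν → ℝ},
    (∀ᶠ n in 𝒰, N.Crit D (b n) ∧ N.Brk D (qn n) (b n) (z n) (b' n) (z' n) (x n) j ∧
      cE N D (b n) (b' n) (x n) ≤ E) → Cs N D (Lc N D 𝒰 b z) → Cs N D (Lc N D 𝒰 b' z') ∧
    ∃ y i, Ch N D q (Lc N D 𝒰 b z) (Lc N D 𝒰 b' z') y i ∧ Tendsto x 𝒰 (𝓝 y) ∧ (j = 0 ↔ i = 0) := by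
  induction j with
  | zero =>
    intro b z x h hc
    have e := Lc.congr (N := N) (D := D) (h.mono fun n h =>
      ⟨(brk_zero h.2.1).1, (brk_zero h.2.1).2.1⟩)
    exact ⟨e ▸ hc, 0, 0, e ▸ Ch.nil _, tendsto_const_nhds.congr'
      (h.mono fun n h => (brk_zero h.2.1).2.2.symm), .rfl⟩
  | succ j ih =>
    intro b z x h hc
    rcases Ultrafilter.eventually_or.1 (h.mono fun n h => brk_succ h.2.1) with h1 | h1
    · obtain ⟨h2, y, i, h3, h4, -⟩ := ih (x := fun n => x n - 1) ((h.and h1).mono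
        fun n ⟨a, y, e, a'⟩ => ⟨a.1, by simpa [e] using a', by
          have := a.2.2; simp only [cE] at this ⊢; linarith⟩) hc
      exact ⟨h2, y + 1, i + 1, by simpa using h3.trans (Ch.bubs _ 1) h2.ne,
        by simpa using h4.add_const 1, by simp⟩
    · have : Nonempty (YC Y κ lam) := ⟨b h.exists.choose⟩
      have : Nonempty (Cfg (Y × ℝ) (Option κ) lam 0) := ⟨cy (b h.exists.choose)⟩
      obtain ⟨c, h1⟩ := ev_choice h1
      obtain ⟨b₁, h1⟩ := ev_choice h1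
      obtain ⟨z₁, h1⟩ := ev_choice h1
      obtain ⟨y, h1⟩ := ev_choice h1
      have h2 : ∀ᶠ n in 𝒰, N.tE D (c n) (b n) (b₁ n) ≤ E ∧ cE N D (b₁ n) (b' n) (y n) ≤ E := by
        filter_upwards [h, h1, T.pos] with n a1 a2 a3
        have a4 := a1.2.2
        rw [a2.2.2.2.2, cE_add (β' := b₁ n)] at a4
        have a5 := ((a3 _ _ _ _ _ a1.1 a2.2.2.1 a2.1).2.2 a2.2.1).le
        have a6 : cE N D (b n) (b₁ n) _ = N.tE D (c n) (b n) (b₁ n) := rfl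
        constructor <;> linarith [brk_nn a3 a2.2.2.2.1 a2.2.2.1]
      have H := T.inn c E ((h.and (h1.and h2)).mono fun n a =>
        ⟨_, _, _, _, a.1.1, a.2.1.2.2.1, a.2.1.1, a.2.2.1⟩)
      obtain ⟨o⟩ := H.out
      obtain ⟨e1, e2⟩ := o.ends_line H ((h.and h1).mono fun n a => ⟨a.1.1, a.2.2.2.1, a.2.1⟩)
      have h3 := e2 ▸ o.cs H (Fin.last _)
      obtain ⟨h4, y', i, h5, h6, -⟩ := ih ((h1.and h2).mono fun n a =>
        ⟨a.1.2.2.1, a.1.2.2.2.1, a.2.2⟩) h3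
      have h7 := o.ch H
      rw [e1, e2] at h7
      have h8 := o.k_ne H (h1.mono fun n a => a.2.1)
      have h9 := o.k_le H
      exact ⟨h4, _, _, h7.trans h5 h3.ne, ((o.kap_line H).add h6).congr'
        (h1.mono fun n a => a.2.2.2.2.symm), by omega⟩

/-- **compactness of broken trajectories** -/
theorem lim {j : ν → ℕ} (h : ∀ᶠ n in 𝒰, N.Crit D (b n) ∧
    N.Brk D (qn n) (b n) (z n) (b' n) (z' n) (x n) (j n) ∧ cE N D (b n) (b' n) (x n) ≤ E)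
    (hc : Cs N D (Lc N D 𝒰 b z)) : ∃ y i, Ch N D q (Lc N D 𝒰 b z) (Lc N D 𝒰 b' z') y i ∧
      Tendsto x 𝒰 (𝓝 y) ∧ ∀ᶠ n in 𝒰, (j n = 0 ↔ i = 0) := by
  obtain ⟨j₀, h1⟩ := T.len_bd h
  obtain ⟨-, y, i, h2, h3, h4⟩ := T.lim_aux j₀ ((h.and h1).mono fun n a =>
    ⟨a.1.1, a.2 ▸ a.1.2.1, a.1.2.2⟩) hc
  exact ⟨y, i, h2, h3, h1.mono fun n e => e ▸ h4⟩

end TI

end Crest.Agent.X212.Nck90
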